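import Vale.Agent.P253.H22.Min
import Vale.Agent.P253.H348.Fin

/-!
P253: Killing potentials: the final statements.
-/

open scoped Manifold ContDiff Topology Bundle
open Set Metric Complex Filter Bundle IsManifold Manifold Module
  Vale.Agent.P253.Mfd Vale.Agent.P253.H577 Vale.Agent.P253.H595 Vale.Agent.P253.H348

set_option maxSynthPendingDepth 3
set_option linter.unusedSectionVars false

noncomputable section

namespace Vale.Agent.P253.H22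

variable {E : Type*} [NormedAddCommGroup E] [NormedSpace ℂ E] [FiniteDimensional ℂ E]
  {M : Type*} [MetricSpace M] [ChartedSpace E M]
  [IsManifold 𝓘(ℂ, E) 1 M] [IsManifold 𝓘(ℝ, E) ∞ M]
  [RiemannianBundle (fun x : M => TangentSpace 𝓘(ℝ, E) x)]
  [IsContMDiffRiemannianBundle 𝓘(ℝ, E) ∞ E (fun x : M => TangentSpace 𝓘(ℝ, E) x)]
  [IsRiemannianManifold 𝓘(ℝ, E) M]
  {h : M → ℝ} {ρ : ℝ → M → M} {x₀ p : M} {lam : ℝ}

theorem isGradOf_flow (hK : IsKahler E M) (hh : ContMDiff 𝓘(ℝ, E) 𝓘(ℝ, ℝ) ∞ h)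
    (hρ : IsJGradFlow E h ρ) : IsGradOf (E := E) ρ h := by
  intro e he z hz
  rw [hρ.vF_eq hK he hz]
  have h1 : chartG e z (gradF h e z) = fderiv ℝ (fun y : E => h (e.symm y)) z := by
    ext w
    exact gradF_spec hK he hz w
  rw [h1]
  exact (((contDiffOn_inChart hh he).contDiffAt
    (e.open_target.mem_nhds hz)).differentiableAt (by simp)).hasFDerivAt

theorem mfderiv_neg_eq_zero_iff {f : M → ℝ} (hf : ContMDiff 𝓘(ℝ, E) 𝓘(ℝ, ℝ) ∞ f) (x : M) :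
    mfderiv 𝓘(ℝ, E) 𝓘(ℝ, ℝ) (fun y => -f y) x = 0 ↔ mfderiv 𝓘(ℝ, E) 𝓘(ℝ, ℝ) f x = 0 := by
  have h2 := mfderiv_eq_inChart hf x
  have h3 := mfderiv_eq_inChart (contMDiff_neg_fun hf) x
  have h4 : fderiv ℝ (inChart (chartAt E x) fun x => -f x) (chartAt E x x)
      = -fderiv ℝ (inChart (chartAt E x) f) (chartAt E x x) :=
    fderiv_fun_neg (f := inChart (chartAt E x) f)
  constructor
  · intro h0
    have h5 : fderiv ℝ (inChart (chartAt E x) fun x => -f x) (chartAt E x x) = 0 := h3.symm.trans h0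
    rw [h4] at h5
    exact h2.trans (neg_eq_zero.1 h5)
  · intro h0
    have h5 : fderiv ℝ (inChart (chartAt E x) f) (chartAt E x x) = 0 := h2.symm.trans h0
    have h6 : fderiv ℝ (inChart (chartAt E x) fun x => -f x) (chartAt E x x) = 0 := by
      rw [h4, h5, neg_zero]
    exact h3.trans h6

variable [CompleteSpace M] [NoncompactSpace M] [ConnectedSpace M]

/-- **Killing potentials** -/
theorem main_asm (hK : IsKahler E M) (hcurv : ∀ x : M, NonnegBisectionalAt E x)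
    (hh : ContMDiff 𝓘(ℝ, E) 𝓘(ℝ, ℝ) ∞ h) (hρ : IsJGradFlow E h ρ)
    (hcond : (∃ x, HessPosAt E h x) ∨
      (∃ x, PosBisectionalAt E x ∧ mfderiv 𝓘(ℝ, E) 𝓘(ℝ, ℝ) h x ≠ 0 ∧ HessNonnegAt E h x) ∨
      ((∀ x : M, PosBisectionalAt E x) ∧ ∃ (N O : Set M) (c : ℝ), IsCompact N ∧ N.Nonempty ∧
        IsOpen O ∧ N ⊆ O ∧ (∀ x ∈ N, h x = c) ∧ ∀ x ∈ O \ N, c < h x)) :
    ∃ (p : M) (b : Basis (Fin (finrank ℂ E)) ℂ E) (m : Fin (finrank ℂ E) → ℝ),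
      HessPosAt E h p ∧ HasWeights ρ p b m ∧
      (PosBisectionalAt E p ∨ (∀ x, HessNonnegAt E h x) →
        (∀ x, mfderiv 𝓘(ℝ, E) 𝓘(ℝ, ℝ) h x = 0 ↔ x = p) ∧
        ∃ F : M ≃ₘ^1⟮𝓘(ℂ, E), 𝓘(ℂ, E)⟯ E, IsLinearization ρ p F) := by
  have key : (∃ x, HessPosAt E h x) → ∃ (p : M) (b : Basis (Fin (finrank ℂ E)) ℂ E)
      (m : Fin (finrank ℂ E) → ℝ), HessPosAt E h p ∧ HasWeights ρ p b m ∧
      (PosBisectionalAt E p ∨ (∀ x, HessNonnegAt E h x) →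
        (∀ x, mfderiv 𝓘(ℝ, E) 𝓘(ℝ, ℝ) h x = 0 ↔ x = p) ∧
        ∃ F : M ≃ₘ^1⟮𝓘(ℂ, E), 𝓘(ℂ, E)⟯ E, IsLinearization ρ p F) := by
    rintro ⟨x, hx⟩
    obtain ⟨p, hp0, hp, ⟨b, m, hw⟩, hF⟩ := main_pos hK hcurv hh hρ hx
    refine ⟨p, b, m, hp, hw, fun hc => ?_⟩
    obtain ⟨F, hF⟩ := hF hc
    refine ⟨fun x => ⟨fun h0 => fixed_unique hw hF ((hρ.fixed_iff hK hh x).2 h0), fun h0 => ?_⟩,
      F, hF⟩
    rw [h0]
    exact hp0
  rcases hcond with hc | ⟨x, hx, hnc, hxn⟩ | ⟨hpos, N, O, c, hN, hNe, hO, hNO, hc, hlt⟩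
  · exact key hc
  · exact key (main_nonneg_point hK hh hρ hx hnc hxn)
  · obtain ⟨p, -, b, m, hw⟩ := exists_weights_of_min hK hcurv hpos hρ.1 (isGradOf_flow hK hh hρ)
      hN hNe hO hNO hc hlt
    exact key ⟨p, (hρ.botGE_iff hK hh).1 (exists_botGE_of_hasWeights hK hρ.1 hw)⟩

/-- steady and expanding gradient Kähler-Ricci solitons -/
theorem main_soliton_asm (hK : IsKahler E M) (hcurv : ∀ x : M, NonnegBisectionalAt E x) {f : M → ℝ}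
    (hs : IsGradSoliton E f lam) (hlam : lam ≤ 0)
    (hx₀ : RicciGTAt E lam x₀ ∨ PosBisectionalAt E x₀) :
    ∃ (ρ : ℝ → M → M) (p : M) (b : Basis (Fin (finrank ℂ E)) ℂ E) (m : Fin (finrank ℂ E) → ℝ)
      (F : M ≃ₘ^1⟮𝓘(ℂ, E), 𝓘(ℂ, E)⟯ E), IsJGradFlow E (fun x => -f x) ρ ∧
      (∀ x, mfderiv 𝓘(ℝ, E) 𝓘(ℝ, ℝ) f x = 0 ↔ x = p) ∧ HasWeights ρ p b m ∧
      IsLinearization ρ p F := by
  have hx : RicciGTAt E lam x₀ := by
    rcases hx₀ with h1 | h1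
    · exact h1
    · exact hs.ricciGT hK hlam h1
  obtain ⟨ρ, p, F, hρ, hp, ⟨b, m, hw⟩, hF⟩ := main_soliton hK hcurv hs hlam hx
  refine ⟨ρ, p, b, m, F, hρ, fun x => ⟨fun h0 => ?_, fun h0 => by rw [h0]; exact hp⟩, hw, hF⟩
  exact fixed_unique hw hF ((hρ.fixed_iff hK (contMDiff_neg_fun hs.smooth) x).2
    ((mfderiv_neg_eq_zero_iff hs.smooth x).2 h0))

end Vale.Agent.P253.H22
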