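import Vale.Agent.P253.H22.Zero
import Vale.Agent.P253.H595.Len
import Vale.Agent.P253.R2.H445.Conv

/-!
P253: the flow of a holomorphic Killing field of a complete Kähler manifold exists for all times and
is a one-parameter group of holomorphic isometries.
-/

open scoped Manifold ContDiff Topology Bundle
open Set Metric Complex Filter Bundle IsManifold Manifold Module MeasureTheory
  Vale.Agent.P253.Mfd Vale.Agent.P253.H577 Vale.Agent.P253.H595

set_option maxSynthPendingDepth 3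
set_option linter.unusedSectionVars false

noncomputable section

namespace Vale.Agent.P253.H22

variable {E : Type*} [NormedAddCommGroup E] [NormedSpace ℂ E] [FiniteDimensional ℂ E]
  {M : Type*} [MetricSpace M] [ChartedSpace E M]
  [IsManifold 𝓘(ℂ, E) 1 M] [IsManifold 𝓘(ℝ, E) ∞ M]
  [RiemannianBundle (fun x : M => TangentSpace 𝓘(ℝ, E) x)]
  [IsContMDiffRiemannianBundle 𝓘(ℝ, E) ∞ E (fun x : M => TangentSpace 𝓘(ℝ, E) x)]
  {e e' : OpenPartialHomeomorph M E} {Z : (x : M) → TangentSpace 𝓘(ℂ, E) x}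

/-- `Z` is a Killing field: the Lie derivative of the metric along `Z` vanishes, in charts -/
def IsKillingField (Z : (x : M) → TangentSpace 𝓘(ℂ, E) x) : Prop :=
  ∀ e ∈ maximalAtlas 𝓘(ℂ, E) 1 M, ∀ z ∈ e.target, ∀ a : E,
    Sfun (chartG e) (fun y : E => comps (E := E) Z e (e.symm y)) z a = 0

/-- the real derivative of the inverse chart maps the components to the field -/
theorem dsymm_comps (he : e ∈ maximalAtlas 𝓘(ℂ, E) 1 M) {x : M} (hx : x ∈ e.source) :
    dsymm e (e x) (comps (E := E) Z e x) = (Z x : E) := by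
  have h1 := (mdiff_symm_of_mem he (e.map_source hx)).hasMFDerivAt
  let T : E →L[ℂ] E := mfderiv 𝓘(ℂ, E) 𝓘(ℂ, E) e.symm (e x)
  have h2 : HasMFDerivAt 𝓘(ℝ, E) 𝓘(ℝ, E) e.symm (e x) (T.restrictScalars ℝ) :=
    ⟨h1.1, HasFDerivWithinAt.restrictScalars ℝ h1.2⟩
  have h3 : dsymm e (e x) = T.restrictScalars ℝ := h2.mfderiv
  rw [h3]
  exact mfderiv_symm_comps (Z := Z) he hx

theorem fnorm_sq_eq (he : e ∈ maximalAtlas 𝓘(ℂ, E) 1 M) {x : M} (hx : x ∈ e.source) :
    fnorm E Z x ^ 2 = chartG e (e x) (comps (E := E) Z e x) (comps (E := E) Z e x) := by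
  rw [chartG_eq_innerAt, dsymm_comps he hx, e.left_inv hx]
  exact tnorm_sq (E := E) x (Z x)

theorem hasDerivAt_line {x : M} {r : ℝ} (he : e ∈ maximalAtlas 𝓘(ℂ, E) 1 M) (hZ : IsHolField Z)
    (t : ℝ)
    (hD : ((r : ℂ) * t, x) ∈ DF (IntAt Z)) (hs : FF (IntAt Z) (r * t) x ∈ e.source) :
    HasDerivAt (fun s : ℝ => e (FF (IntAt Z) (s * t) x))
      (t • comps (E := E) Z e (FF (IntAt Z) (r * t) x)) r := by
  have hLF := locFlow_of_field hZ
  have h1 := (FF_int hLF hD).hasDerivAt he hs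
  have h2 : HasDerivAt (fun s : ℝ => (s : ℂ) * t) (t : ℂ) r := by
    simpa using ((hasDerivAt_id r).ofReal_comp).mul_const (t : ℂ)
  exact HasDerivAt.scomp (h := fun s : ℝ => (s : ℂ) * t) r h1 h2

/-- the speed of an orbit of a Killing field is constant -/
theorem hasDerivAt_speed (hZ : IsHolField Z) (hkill : IsKillingField Z) {x : M} {r t : ℝ}
    (hD : ((r : ℂ) * t, x) ∈ DF (IntAt Z)) :
    HasDerivAt (fun s : ℝ => fnorm E Z (FF (IntAt Z) (s * t) x) ^ 2) 0 r := by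
  have hLF := locFlow_of_field hZ
  have he : chartAt E (FF (IntAt Z) (r * t) x) ∈ maximalAtlas 𝓘(ℂ, E) 1 M :=
    chart_mem_maximalAtlas _
  have hs : FF (IntAt Z) (r * t) x ∈ (chartAt E (FF (IntAt Z) (r * t) x)).source :=
    mem_chart_source E _
  set e := chartAt E (FF (IntAt Z) (r * t) x) with hedef
  have her := mem_maximalAtlas_real he
  set c : E → E := fun y => comps (E := E) Z e (e.symm y) with hc
  set z : E := e (FF (IntAt Z) (r * t) x) with hz
  have hzt : z ∈ e.target := e.map_source hs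
  have h1 := hasDerivAt_line he hZ t hD hs
  have hcz : comps (E := E) Z e (FF (IntAt Z) (r * t) x) = c z := by
    simp only [hc, hz, e.left_inv hs]
  rw [hcz] at h1
  have hG : HasFDerivAt (chartG e) (fderiv ℝ (chartG e) z) z :=
    (((contDiffOn_chartG her).contDiffAt (e.open_target.mem_nhds hzt)).differentiableAt
      (by simp)).hasFDerivAt
  have hcd : HasFDerivAt c (fderiv ℝ c z) z :=
    ((((contDiffOn_of_differentiableOn_complex e.open_target (hZ e he)).restrict_scalars ℝ).contDiffAt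
      (e.open_target.mem_nhds hzt)).differentiableAt (by simp)).hasFDerivAt
  have h2 := HasFDerivAt.comp_hasDerivAt (f := fun s : ℝ => e (FF (IntAt Z) (s * t) x)) r hG h1
  have h3 := HasFDerivAt.comp_hasDerivAt (f := fun s : ℝ => e (FF (IntAt Z) (s * t) x)) r hcd h1
  have h4 := (h2.clm_apply h3).clm_apply h3
  have h5 : fderiv ℝ (chartG e) z (t • c z) (c z) (c z)
      + chartG e z (fderiv ℝ c z (t • c z)) (c z) + chartG e z (c z) (fderiv ℝ c z (t • c z)) =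
      2 * t * Sfun (chartG e) c z (c z) := by
    rw [chartG_symm e z (c z)]
    simp only [map_smul, smul_apply, smul_eq_mul, Sfun]
    ring
  have h6 : Sfun (chartG e) c z (c z) = 0 := hkill e he z hzt _
  rw [h6, mul_zero] at h5
  have hcont : ContinuousAt (fun s : ℝ => FF (IntAt Z) (s * t) x) r := by
    have h7 : ContinuousAt (fun w => FF (IntAt Z) w x) ((r : ℂ) * t) :=
      (hLF.mdiff (FF_int hLF hD)).continuousAt
    have h8 : ContinuousAt (fun s : ℝ => (s : ℂ) * t) r := by fun_prop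
    exact ContinuousAt.comp (g := fun w => FF (IntAt Z) w x) (f := fun s : ℝ => (s : ℂ) * t) h7 h8
  have h7 : (fun s : ℝ => fnorm E Z (FF (IntAt Z) (s * t) x) ^ 2) =ᶠ[𝓝 r]
      fun s : ℝ => chartG e (e (FF (IntAt Z) (s * t) x)) (c (e (FF (IntAt Z) (s * t) x)))
        (c (e (FF (IntAt Z) (s * t) x))) := by
    filter_upwards [hcont.eventually (e.open_source.mem_nhds hs)] with s hs'
    rw [fnorm_sq_eq he hs']
    simp only [hc, e.left_inv hs']
  refine HasDerivAt.congr_of_eventuallyEq ?_ h7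
  refine h4.congr_deriv ?_
  simp only [Function.comp_apply, add_apply]
  linarith only [h5]

theorem fnorm_const (hZ : IsHolField Z) (hkill : IsKillingField Z) {x : M} {b t : ℝ}
    (hb : 0 ≤ b) (hD : ∀ r ∈ Icc (0:ℝ) b, ((r : ℂ) * t, x) ∈ DF (IntAt Z)) :
    fnorm E Z (FF (IntAt Z) (b * t) x) = fnorm E Z x := by
  have hLF := locFlow_of_field hZ
  rcases hb.eq_or_lt with h0 | h0
  · subst h0
    simp only [ofReal_zero, zero_mul, FF_zero hLF]
  have h1 := (convex_Icc (0:ℝ) b).is_const_of_fderivWithin_eq_zero (𝕜 := ℝ)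
    (f := fun s : ℝ => fnorm E Z (FF (IntAt Z) (s * t) x) ^ 2)
    (fun s hs => (hasDerivAt_speed hZ hkill (hD s hs)).differentiableAt.differentiableWithinAt)
    (fun s hs => by
      have h2 := ((hasDerivAt_speed hZ hkill (hD s hs)).hasFDerivAt.hasFDerivWithinAt
        (s := Icc (0:ℝ) b)).fderivWithin (uniqueDiffOn_Icc h0 s hs)
      rw [h2]
      ext
      simp)
    (show b ∈ Icc (0:ℝ) b from ⟨hb, le_rfl⟩) (show (0:ℝ) ∈ Icc (0:ℝ) b from ⟨le_rfl, hb⟩)
  simp only [ofReal_zero, zero_mul, FF_zero hLF] at h1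
  exact (pow_left_inj₀ (tnorm_nonneg (E := E) _ _) (tnorm_nonneg (E := E) _ _) two_ne_zero).1 h1

variable [IsRiemannianManifold 𝓘(ℝ, E) M]

open scoped ENNReal

/-- distance covered along an orbit on which the field is bounded -/
theorem dist_orbit_le (hK : IsKahler E M)
    (hZ : IsHolField Z) {x : M} {C : ℝ} (hC : 0 ≤ C) {t : ℂ} {b : ℝ} (hb0 : 0 ≤ b)
    (hD : ∀ r ∈ Icc (0:ℝ) b, ((r : ℂ) * t, x) ∈ DF (IntAt Z))
    (hb : ∀ r ∈ Icc (0:ℝ) b, fnorm E Z (FF (IntAt Z) (r * t) x) ≤ C) :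
    dist x (FF (IntAt Z) (b * t) x) ≤ 2 * ‖t‖ * C * b := by
  have hLF := locFlow_of_field hZ
  set P := IntAt Z with hP
  set L : ℝ := 2 * ‖t‖ * C with hL
  have hL0 : 0 ≤ L := by positivity
  set γ : ℝ → M := fun r => FF P (r * t) x with hγ
  have hγ0 : γ 0 = x := by simp only [hγ, ofReal_zero, zero_mul, FF_zero hLF]
  have hγs : ∀ r ∈ Icc (0:ℝ) b, ContMDiffAt 𝓘(ℝ, ℝ) 𝓘(ℝ, E) ∞ γ r := by
    intro r hr
    have h1 : ∀ᶠ ζ in 𝓝 ((r:ℂ) * t), MDifferentiableAt 𝓘(ℂ, ℂ) 𝓘(ℂ, E) (fun w => FF P w x) ζ := by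
      filter_upwards [(isOpen_slice (P := P) x).mem_nhds (hD r hr)] with ζ hζ
      exact hLF.mdiff (FF_int hLF hζ)
    have h2 := contMDiffAt_real_curve h1
    have h3 : ContMDiffAt 𝓘(ℝ, ℝ) 𝓘(ℝ, ℂ) ∞ (fun r : ℝ => (r : ℂ) * t) r := by
      have : ContDiff ℝ ∞ (fun r : ℝ => (r : ℂ) * t) := ofRealCLM.contDiff.mul contDiff_const
      exact this.contMDiff.contMDiffAt
    exact ContMDiffAt.comp r (g := fun w => FF P w x) (f := fun r : ℝ => (r : ℂ) * t) h2 h3
  have hspeed : ∀ r ∈ Icc (0:ℝ) b,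
      ‖(mfderiv 𝓘(ℝ, ℝ) 𝓘(ℝ, E) γ r 1 : TangentSpace 𝓘(ℝ, E) (γ r))‖ ≤ L := by
    intro r hr
    have h1 := (mfderiv_line (Z := Z) (f := fun w => FF P w x) (t := t) (r := r)
      (FF_int hLF (hD r hr))).mfderiv
    have h2 : (mfderiv 𝓘(ℝ, ℝ) 𝓘(ℝ, E) γ r 1 : TangentSpace 𝓘(ℝ, E) (γ r)) =
        (show TangentSpace 𝓘(ℝ, E) (γ r) from (t • (Z (γ r) : E))) := by
      have h3 := congrArg (fun T : ℝ →L[ℝ] E => T 1) h1
      refine Eq.trans h3 ?_
      change (1:ℝ) • (t • (Z (γ r) : E)) = _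
      rw [one_smul]
    rw [h2]
    refine (tnorm_smul_le (E := E) hK (γ r) t (Z (γ r))).trans ?_
    rw [hL]
    exact mul_le_mul_of_nonneg_left (hb r hr) (by positivity)
  have h1 : edist (γ 0) (γ b) ≤
      ∫⁻ r in Ioo 0 b, ‖(mfderiv 𝓘(ℝ, ℝ) 𝓘(ℝ, E) γ r 1 : TangentSpace 𝓘(ℝ, E) (γ r))‖ₑ := by
    rw [IsRiemannianManifold.out (I := 𝓘(ℝ, E)) (γ 0) (γ b)]
    refine (Manifold.riemannianEDist_le_pathELength (γ := γ) (a := 0) (b := b)
      (fun r hr => ((hγs r hr).of_le (by simp)).contMDiffWithinAt) rfl rfl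
        hb0).trans_eq ?_
    rw [Manifold.pathELength_eq_lintegral_mfderiv_Ioo]
  have h2 : ∫⁻ r in Ioo 0 b, ‖(mfderiv 𝓘(ℝ, ℝ) 𝓘(ℝ, E) γ r 1 : TangentSpace 𝓘(ℝ, E) (γ r))‖ₑ ≤
      ∫⁻ r in Ioo 0 b, ENNReal.ofReal L := by
    apply setLIntegral_mono measurable_const
    intro r hr
    rw [← ofReal_norm]
    apply ENNReal.ofReal_le_ofReal
    exact hspeed r (Ioo_subset_Icc_self hr)
  rw [setLIntegral_const, Real.volume_Ioo, ← ENNReal.ofReal_mul hL0] at h2
  have h3 := h1.trans h2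
  rw [edist_dist, ENNReal.ofReal_le_ofReal_iff (mul_nonneg hL0 (by linarith)), hγ0,
    sub_zero] at h3
  exact h3

/-- the flow of a Killing field of a complete manifold exists for all times -/
theorem mem_DF_real (hK : IsKahler E M) [ProperSpace M] (hZ : IsHolField Z)
    (hkill : IsKillingField Z) (x : M) (t : ℝ) : ((t : ℂ), x) ∈ DF (IntAt Z) := by
  have hLF := locFlow_of_field hZ
  set P := IntAt Z with hP
  by_contra hcon
  set S : Set ℝ := {r ∈ Icc (0:ℝ) 1 | ((r : ℂ) * t, x) ∉ DF P} with hS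
  have hSc : IsClosed S := by
    have h1 : IsClosed {r : ℝ | ((r : ℂ) * t, x) ∉ DF P} := by
      have h2 : IsOpen {r : ℝ | ((r : ℂ) * t, x) ∈ DF P} :=
        (isOpen_slice (P := P) x).preimage (f := fun r : ℝ => (r : ℂ) * t) (by fun_prop)
      exact h2.isClosed_compl
    exact isClosed_Icc.inter h1
  have hSne : S.Nonempty := ⟨1, ⟨zero_le_one, le_rfl⟩, by simpa using hcon⟩
  have hSb : BddBelow S := ⟨0, fun r hr => hr.1.1⟩
  have hr₁ := hSc.csInf_mem hSne hSb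
  set r₁ := sInf S with hr₁d
  have hlow : ∀ r ∈ Ico (0:ℝ) r₁, ((r : ℂ) * t, x) ∈ DF P := by
    intro r hr
    by_contra h
    have : r₁ ≤ r := csInf_le hSb ⟨⟨hr.1, hr.2.le.trans hr₁.1.2⟩, h⟩
    linarith [hr.2]
  have hr₁pos : 0 < r₁ := by
    rcases hr₁.1.1.eq_or_lt with h | h
    · exfalso
      apply hr₁.2
      rw [← h, ofReal_zero, zero_mul]
      exact zero_mem_DF hLF x
    · exact h
  have hesc := tendsto_cocompact hLF (t₀ := (r₁ : ℂ) * t) (x₀ := x) hr₁.2 (fun s hs => by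
    have h1 : (s : ℂ) * ((r₁ : ℂ) * t) = ((s * r₁ : ℝ) : ℂ) * t := by push_cast; ring
    rw [h1]
    refine hlow _ ⟨mul_nonneg hs.1 hr₁pos.le, ?_⟩
    nlinarith [hs.2])
  have hcurve : Tendsto (fun r : ℝ => ((r : ℂ) * t, x)) (𝓝[<] r₁) (𝓝[DF P] ((r₁ : ℂ) * t, x)) := by
    refine tendsto_nhdsWithin_of_tendsto_nhds_of_eventually_within _ ?_ ?_
    · have hc : Continuous (fun r : ℝ => ((r : ℂ) * t, x)) := by fun_prop
      exact (hc.tendsto r₁).mono_left nhdsWithin_le_nhds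
    · filter_upwards [Ioo_mem_nhdsLT hr₁pos] with r hr
      exact hlow r ⟨hr.1.le, hr.2⟩
  have h1 := hesc.comp hcurve
  set C : ℝ := fnorm E Z x with hC
  have hC0 : 0 ≤ C := tnorm_nonneg (E := E) _ _
  set D : ℝ := 2 * ‖(t : ℂ)‖ * C with hD
  have h2 : ∀ᶠ y in cocompact M, y ∉ closedBall x D :=
    (isCompact_closedBall x D).compl_mem_cocompact
  obtain ⟨r, h3, h4⟩ := ((h1.eventually h2).and (Ioo_mem_nhdsLT hr₁pos)).exists
  apply h3
  have h5 := dist_orbit_le hK hZ hC0 (t := (t : ℂ)) (b := r) h4.1.le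
    (fun s hs => hlow s ⟨hs.1, hs.2.trans_lt h4.2⟩) (fun s hs => (fnorm_const hZ hkill hs.1
      (fun s' hs' => hlow s' ⟨hs'.1, (hs'.2.trans hs.2).trans_lt h4.2⟩)).le)
  rw [mem_closedBall, dist_comm]
  simp only [Function.comp_apply]
  refine h5.trans ?_
  have h6 : 0 ≤ 2 * ‖(t : ℂ)‖ * C := by positivity
  nlinarith [h4.2, hr₁.1.2]

end Vale.Agent.P253.H22
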