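import Vale.Agent.P253.H595.FinB
import Vale.Agent.P253.H567.Main

/-!
P253: a holomorphic vector field along which a continuous exhaustion function decreases outside a
compact set is complete (nonnegative bisectional curvature), and its orbits meet a compact set.
-/

open scoped Manifold ContDiff Topology Bundle
open Set Metric Complex Filter IsManifold Bundle Manifold Vale.Agent.P253.Mfd
  Vale.Agent.P253.CStar

set_option maxSynthPendingDepth 3
set_option linter.unusedSectionVars false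

noncomputable section

namespace Vale.Agent.P253.H22

open Vale.Agent.P253.R2 Vale.Agent.P253.H595

/-- a function which decreases above the level `c₀` does not cross a level above `c₀` -/
theorem le_of_dec {g : ℝ → ℝ} {a b c₀ c : ℝ} (hg : ContinuousOn g (Icc a b))
    (hd : ∀ t ∈ Ico a b, c₀ < g t → ∀ᶠ s in 𝓝[>] t, g s < g t) (hc : c₀ < c) (ha : g a ≤ c) :
    ∀ t ∈ Icc a b, g t ≤ c := by
  rcases lt_or_ge b a with hab | hab
  · intro t ht
    exact absurd (ht.1.trans ht.2) (not_le.2 hab)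
  have hcl : IsClosed ({t | g t ≤ c} ∩ Icc a b) := by
    have h1 := hg.preimage_isClosed_of_isClosed isClosed_Icc (isClosed_Iic (a := c))
    rw [inter_comm]
    exact h1
  intro t ht
  refine hcl.Icc_subset_of_forall_mem_nhdsWithin ha (fun x hx => ?_) ht
  rcases lt_or_eq_of_le (show g x ≤ c from hx.1) with h1 | h1
  · have h2 : ContinuousWithinAt g (Icc a b) x := hg x ⟨hx.2.1, hx.2.2.le⟩
    have h3 : ∀ᶠ s in 𝓝[Icc a b] x, g s < c := h2.eventually (gt_mem_nhds h1)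
    have h4 : 𝓝[>] x ≤ 𝓝[Icc a b] x := by
      refine nhdsWithin_le_iff.2 ?_
      filter_upwards [Ioo_mem_nhdsGT hx.2.2] with s hs
      exact ⟨hx.2.1.trans hs.1.le, hs.2.le⟩
    filter_upwards [h4 h3] with s hs using hs.le
  · filter_upwards [hd x hx.2 (by rw [h1]; exact hc)] with s hs
    exact (hs.trans_eq h1).le

variable {E : Type*} [NormedAddCommGroup E] [NormedSpace ℂ E]
  {M : Type*} [TopologicalSpace M] [ChartedSpace E M]

variable (E) in
/-- the holomorphic vector field `Z` is dissipative: some continuous exhaustion function `φ` is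
strictly decreasing along the integral curves of `Z` outside a compact set -/
def IsDissipativeField (Z : (x : M) → TangentSpace 𝓘(ℂ, E) x) : Prop :=
  ∃ (φ : M → ℝ) (K : Set M), Continuous φ ∧ (∀ c : ℝ, IsCompact {x | φ x ≤ c}) ∧ IsCompact K ∧
    ∀ x ∉ K, ∀ f : ℂ → M, f 0 = x → (∀ᶠ ζ in 𝓝 (0 : ℂ), IntAt Z f ζ) →
      ∀ᶠ t : ℝ in 𝓝[>] 0, φ (f t) < φ x

end Vale.Agent.P253.H22

namespace Vale.Agent.P253.H22

open Vale.Agent.P253.R2 Vale.Agent.P253.H595

variable {E : Type*} [NormedAddCommGroup E] [NormedSpace ℂ E] [FiniteDimensional ℂ E]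
  {M : Type*} [MetricSpace M] [ChartedSpace E M] [IsManifold 𝓘(ℂ, E) 1 M]
  {Z : (x : M) → TangentSpace 𝓘(ℂ, E) x}

/-- forward orbits of a dissipative field exist for all times -/
theorem forward_mem_DF (hZ : IsHolField Z) {φ : M → ℝ} {K : Set M} (hφ : Continuous φ)
    (hprop : ∀ c : ℝ, IsCompact {x | φ x ≤ c}) (hKc : IsCompact K)
    (hdec : ∀ x ∉ K, ∀ f : ℂ → M, f 0 = x → (∀ᶠ ζ in 𝓝 (0 : ℂ), IntAt Z f ζ) →
      ∀ᶠ t : ℝ in 𝓝[>] 0, φ (f t) < φ x) (x : M) {t : ℝ} (ht : 0 ≤ t) :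
    ((t : ℂ), x) ∈ DF (IntAt Z) := by
  have hLF := locFlow_of_field hZ
  obtain ⟨c₀, hc₀⟩ := hKc.bddAbove_image hφ.continuousOn
  have hc₀' : ∀ y ∈ K, φ y ≤ c₀ := fun y hy => hc₀ (mem_image_of_mem φ hy)
  set S : Set ℝ := {s | 0 ≤ s ∧ ((s : ℂ), x) ∉ DF (IntAt Z)} with hS
  by_contra hcon
  have hne : S.Nonempty := ⟨t, ht, hcon⟩
  have hcl : IsClosed S := by
    have h1 : IsOpen {s : ℝ | ((s : ℂ), x) ∈ DF (IntAt Z)} :=
      (isOpen_slice (P := IntAt Z) x).preimage continuous_ofReal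
    exact isClosed_Ici.inter h1.isClosed_compl
  have hbdd : BddBelow S := ⟨0, fun s hs => hs.1⟩
  set t₀ : ℝ := sInf S with ht₀
  have ht₀S : t₀ ∈ S := hcl.csInf_mem hne hbdd
  have ht₀0 : 0 < t₀ := by
    rcases lt_or_eq_of_le ht₀S.1 with h1 | h1
    · exact h1
    · exfalso
      apply ht₀S.2
      rw [← h1, ofReal_zero]
      exact zero_mem_DF hLF x
  have hmem : ∀ s : ℝ, 0 ≤ s → s < t₀ → ((s : ℂ), x) ∈ DF (IntAt Z) := by
    intro s hs hst
    by_contra hcon
    exact absurd (csInf_le hbdd (show s ∈ S from ⟨hs, hcon⟩)) (not_le.2 hst)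
  set c : ℝ := max (φ x) (c₀ + 1) with hcdef
  have hcont : ∀ s : ℝ, 0 ≤ s → s < t₀ → ContinuousAt (fun s : ℝ => φ (FF (IntAt Z) s x)) s := by
    intro s hs hst
    have h1 : ContinuousAt (fun w : ℂ => FF (IntAt Z) w x) (s : ℂ) :=
      (hLF.mdiff (FF_int hLF (hmem s hs hst))).continuousAt
    exact hφ.continuousAt.comp
      (ContinuousAt.comp (g := fun w : ℂ => FF (IntAt Z) w x) h1 continuous_ofReal.continuousAt)
  have hle : ∀ s : ℝ, 0 ≤ s → s < t₀ → φ (FF (IntAt Z) s x) ≤ c := by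
    intro s hs hst
    refine le_of_dec (g := fun s : ℝ => φ (FF (IntAt Z) s x)) (a := 0) (b := s) (c₀ := c₀) (c := c)
      (fun r hr => (hcont r hr.1 (hr.2.trans_lt hst)).continuousWithinAt) (fun r hr hgr => ?_)
      (by rw [hcdef]; exact (by linarith : c₀ < c₀ + 1).trans_le (le_max_right _ _))
      (by simp only [ofReal_zero, FF_zero hLF]; exact le_max_left _ _) s ⟨hs, le_rfl⟩
    have hrt : r < t₀ := hr.2.trans hst
    have hyK : FF (IntAt Z) r x ∉ K := fun h => absurd (hc₀' _ h) (not_le.2 hgr)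
    have h1 := hdec _ hyK (fun w => FF (IntAt Z) (w + r) x) (by simp only [zero_add]) ?_
    · have h2 : Tendsto (fun s : ℝ => s - r) (𝓝[>] r) (𝓝[>] 0) := by
        refine tendsto_nhdsWithin_iff.2 ⟨?_, ?_⟩
        · have h3 : Tendsto (fun s : ℝ => s - r) (𝓝 r) (𝓝 (r - r)) :=
            (continuous_id.sub continuous_const).tendsto r
          rw [sub_self] at h3
          exact h3.mono_left nhdsWithin_le_nhds
        · filter_upwards [self_mem_nhdsWithin] with s hs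
          exact mem_Ioi.2 (sub_pos.2 (mem_Ioi.1 hs))
      filter_upwards [h2.eventually h1] with s hs
      have h3 : (((s - r : ℝ) : ℂ) + r) = s := by push_cast; ring
      rw [h3] at hs
      exact hs
    · have h2 : ∀ᶠ ζ in 𝓝 (0 : ℂ), (ζ + (r : ℂ), x) ∈ DF (IntAt Z) := by
        have h3 : ContinuousAt (fun ζ : ℂ => ζ + r) 0 := by fun_prop
        refine h3.eventually (f := fun ζ : ℂ => ζ + r) ((isOpen_slice (P := IntAt Z) x).mem_nhds ?_)
        change ((0 : ℂ) + r, x) ∈ DF (IntAt Z)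
        rw [zero_add]
        exact hmem r hr.1 hrt
      filter_upwards [h2] with ζ hζ using IntAt.shift (FF_int hLF hζ)
  have hco := tendsto_cocompact hLF ht₀S.2 (fun r hr => by
    have h1 := hmem (r * t₀) (mul_nonneg hr.1 ht₀0.le) (by nlinarith [hr.2])
    rw [ofReal_mul] at h1
    exact h1)
  have hmap : Tendsto (fun s : ℝ => ((s : ℂ), x)) (𝓝[<] t₀) (𝓝[DF (IntAt Z)] ((t₀ : ℂ), x)) := by
    refine tendsto_nhdsWithin_iff.2 ⟨?_, ?_⟩
    · have h1 : Continuous (fun s : ℝ => ((s : ℂ), x)) := by fun_prop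
      exact (h1.tendsto t₀).mono_left nhdsWithin_le_nhds
    · filter_upwards [Ioo_mem_nhdsLT ht₀0] with s hs using hmem s hs.1.le hs.2
  have h1 := (hco.comp hmap).eventually ((hprop c).compl_mem_cocompact)
  have h2 : ∀ᶠ s : ℝ in 𝓝[<] t₀, False := by
    filter_upwards [h1, Ioo_mem_nhdsLT ht₀0] with s hs hs'
    exact hs (hle s hs'.1.le hs'.2)
  exact (NeBot.ne inferInstance : 𝓝[<] t₀ ≠ ⊥) (eventually_false_iff_eq_bot.1 h2)

/-- the orbits of a complete dissipative field meet a compact set -/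
theorem exists_compact_of_dec {φ : M → ℝ} {K : Set M} (hφ : Continuous φ)
    (hprop : ∀ c : ℝ, IsCompact {x | φ x ≤ c}) (hKc : IsCompact K)
    (hdec : ∀ x ∉ K, ∀ f : ℂ → M, f 0 = x → (∀ᶠ ζ in 𝓝 (0 : ℂ), IntAt Z f ζ) →
      ∀ᶠ t : ℝ in 𝓝[>] 0, φ (f t) < φ x) {ψ : ℂ → M → M} (hψ : IsHolCFlow E ψ)
    (hint : ∀ x ζ, IntAt Z (fun w => ψ w x) ζ) :
    ∃ K' : Set M, IsCompact K' ∧ ∀ x, ∃ t : ℝ, 0 ≤ t ∧ ψ t x ∈ K' := by
  obtain ⟨c₀, hc₀⟩ := hKc.bddAbove_image hφ.continuousOn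
  have hc₀' : ∀ y ∈ K, φ y ≤ c₀ := fun y hy => hc₀ (mem_image_of_mem φ hy)
  refine ⟨{x | φ x ≤ c₀ + 1}, hprop _, fun x => ?_⟩
  by_contra hcon
  push Not at hcon
  have hgt : ∀ t : ℝ, 0 ≤ t → c₀ + 1 < φ (ψ t x) := fun t ht => not_le.1 (hcon t ht)
  have hcψ : Continuous (fun q : ℂ × M => ψ q.1 q.2) := hψ.holo.continuous
  have hcont : ∀ y : M, Continuous (fun t : ℝ => φ (ψ t y)) := fun y =>
    hφ.comp (hcψ.comp (continuous_ofReal.prodMk continuous_const))
  have hanti : ∀ s t : ℝ, 0 ≤ s → s ≤ t → φ (ψ t x) ≤ φ (ψ s x) := by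
    intro s t hs hst
    refine le_of_dec (g := fun t : ℝ => φ (ψ t x)) (a := s) (b := t) (c₀ := c₀)
      (c := φ (ψ s x)) (hcont x).continuousOn (fun r hr hgr => ?_)
      (by linarith [hgt s hs]) le_rfl t ⟨hst, le_rfl⟩
    have hyK : ψ r x ∉ K := fun h => absurd (hc₀' _ h) (not_le.2 hgr)
    have h1 := hdec _ hyK (fun w => ψ w (ψ r x)) (hψ.zero _) (Eventually.of_forall (hint _))
    have h2 : Tendsto (fun s : ℝ => s - r) (𝓝[>] r) (𝓝[>] 0) := by
      refine tendsto_nhdsWithin_iff.2 ⟨?_, ?_⟩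
      · have h3 : Tendsto (fun s : ℝ => s - r) (𝓝 r) (𝓝 (r - r)) :=
          (continuous_id.sub continuous_const).tendsto r
        rw [sub_self] at h3
        exact h3.mono_left nhdsWithin_le_nhds
      · filter_upwards [self_mem_nhdsWithin] with s hs
        exact mem_Ioi.2 (sub_pos.2 (mem_Ioi.1 hs))
    filter_upwards [h2.eventually h1] with s hs
    have h3 : (((s - r : ℝ) : ℂ) + r) = s := by push_cast; ring
    rw [← hψ.add, h3] at hs
    exact hs
  -- the limit of `φ` along the orbit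
  obtain ⟨L, hL⟩ : ∃ L, Tendsto (fun n : ℕ => φ (ψ ((n : ℝ) : ℂ) x)) atTop (𝓝 L) := by
    refine ⟨_, tendsto_atTop_ciInf (fun m n hmn => hanti m n (Nat.cast_nonneg m)
      (by exact_mod_cast hmn)) ⟨c₀ + 1, ?_⟩⟩
    rintro _ ⟨n, rfl⟩
    exact (hgt n (Nat.cast_nonneg n)).le
  have hLt : Tendsto (fun t : ℝ => φ (ψ t x)) atTop (𝓝 L) := by
    have hlow : ∀ t : ℝ, 0 ≤ t → L ≤ φ (ψ t x) := by
      intro t ht
      refine le_of_tendsto hL ?_
      obtain ⟨N, hN⟩ := exists_nat_ge t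
      filter_upwards [eventually_ge_atTop N] with n hn
      exact hanti t n ht (hN.trans (by exact_mod_cast hn))
    rw [Metric.tendsto_atTop]
    intro ε hε
    obtain ⟨N, hN⟩ := Metric.tendsto_atTop.1 hL ε hε
    refine ⟨N, fun t ht => ?_⟩
    have h1 := hN N le_rfl
    have h2 := hlow t ((Nat.cast_nonneg N).trans ht)
    have h3 := hanti N t (Nat.cast_nonneg N) ht
    rw [Real.dist_eq, abs_lt] at h1 ⊢
    constructor
    · linarith
    · linarith [h1.2]
  have hLc : c₀ + 1 ≤ L := ge_of_tendsto hL (Eventually.of_forall fun n =>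
    (hgt n (Nat.cast_nonneg n)).le)
  obtain ⟨y, -, u, hu, hy⟩ := (hprop (φ x)).tendsto_subseq (x := fun n : ℕ => ψ ((n : ℝ) : ℂ) x)
    (fun n => by
      have h1 := hanti 0 n le_rfl (Nat.cast_nonneg n)
      rw [ofReal_zero, hψ.zero] at h1
      exact h1)
  have hlim : ∀ s : ℝ, 0 ≤ s → φ (ψ s y) = L := by
    intro s hs
    have h1 : Tendsto (fun n : ℕ => φ (ψ s (ψ (((u n : ℕ) : ℝ) : ℂ) x))) atTop (𝓝 (φ (ψ s y))) := by
      have h2 : Continuous (fun z : M => φ (ψ s z)) :=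
        hφ.comp (hcψ.comp (continuous_const.prodMk continuous_id))
      exact (h2.tendsto y).comp hy
    have h3 : Tendsto (fun n : ℕ => φ (ψ ((s + (u n : ℕ) : ℝ) : ℂ) x)) atTop (𝓝 L) := by
      refine hLt.comp (tendsto_atTop_add_const_left _ s ?_)
      exact tendsto_natCast_atTop_atTop.comp hu.tendsto_atTop
    refine tendsto_nhds_unique h1 (h3.congr fun n => ?_)
    rw [← hψ.add, ofReal_add]
  have hyL : φ y = L := by
    have h1 := hlim 0 le_rfl
    rwa [ofReal_zero, hψ.zero] at h1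
  have hyK : y ∉ K := fun h => by
    have := hc₀' y h
    linarith
  have h1 := hdec y hyK (fun w => ψ w y) (hψ.zero y) (Eventually.of_forall (hint y))
  have h2 : ∀ᶠ t : ℝ in 𝓝[>] 0, False := by
    filter_upwards [h1, self_mem_nhdsWithin] with t ht ht0
    rw [hlim t (le_of_lt ht0), hyL] at ht
    exact lt_irrefl _ ht
  exact (NeBot.ne inferInstance : 𝓝[>] (0:ℝ) ≠ ⊥) (eventually_false_iff_eq_bot.1 h2)

variable [IsManifold 𝓘(ℝ, E) ∞ M]
  [RiemannianBundle (fun x : M => TangentSpace 𝓘(ℝ, E) x)]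
  [IsContMDiffRiemannianBundle 𝓘(ℝ, E) ∞ E (fun x : M => TangentSpace 𝓘(ℝ, E) x)]
  [IsRiemannianManifold 𝓘(ℝ, E) M]

/-- **dissipative holomorphic vector fields** -/
theorem dissipative_complete (hK : IsKahler E M) [CompleteSpace M] [ConnectedSpace M]
    (hnn : ∀ x : M, NonnegBisectionalAt E x) (hZ : IsHolField Z) (h : IsDissipativeField E Z) :
    ∃ ψ : ℂ → M → M, IsHolCFlow E ψ ∧ (∀ x ζ, IntAt Z (fun w => ψ w x) ζ) ∧
      ∃ K : Set M, IsCompact K ∧ ∀ x, ∃ t : ℝ, 0 ≤ t ∧ ψ t x ∈ K := by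
  have hLF := locFlow_of_field hZ
  obtain ⟨φ, K, hφ, hprop, hKc, hdec⟩ := h
  obtain ⟨hD, h0, hadd, hsm⟩ := H595.complete (H451.kp_prop hK hnn)
    (H618.liouville_noTouch hK hnn) hLF
    (fun x t ht => forward_mem_DF hZ hφ hprop hKc hdec x ht.1)
  have hψ : IsHolCFlow E (FF (IntAt Z)) := ⟨h0, hadd, hsm⟩
  have hint : ∀ x ζ, IntAt Z (fun w => FF (IntAt Z) w x) ζ :=
    fun x ζ => FF_int hLF (hD ▸ mem_univ _)
  exact ⟨_, hψ, hint, exists_compact_of_dec hφ hprop hKc hdec hψ hint⟩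

omit [FiniteDimensional ℂ E] [IsManifold 𝓘(ℂ, E) 1 M] [IsManifold 𝓘(ℝ, E) ∞ M]
  [RiemannianBundle (fun x : M => TangentSpace 𝓘(ℝ, E) x)]
  [IsContMDiffRiemannianBundle 𝓘(ℝ, E) ∞ E (fun x : M => TangentSpace 𝓘(ℝ, E) x)]
  [IsRiemannianManifold 𝓘(ℝ, E) M] in
/-- the real times `t ≥ 0` of a holomorphic action of `ℂ` form a semigroup -/
theorem semigroup_of_cflow {ψ : ℂ → M → M} (hψ : IsHolCFlow E ψ) :
    H567.IsHolSemigroup E (fun (t : ℝ) x => ψ t x) where
  zero x := by simp only [ofReal_zero, hψ.zero]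
  add s t x _ _ := by simp only [ofReal_add, hψ.add]
  cont := by
    have h1 : Continuous (fun q : ℝ × M => ((q.1 : ℂ), q.2)) := by fun_prop
    exact (hψ.holo.continuous.comp h1).continuousOn
  holo t _ := by
    have h2 : ContMDiff 𝓘(ℂ, E) 𝓘(ℂ, E) 1 (fun x => ψ t x) :=
      hψ.holo.comp (contMDiff_const.prodMk contMDiff_id)
    exact h2.mdifferentiable (by simp)

omit [IsManifold 𝓘(ℝ, E) ∞ M]
  [RiemannianBundle (fun x : M => TangentSpace 𝓘(ℝ, E) x)]
  [IsContMDiffRiemannianBundle 𝓘(ℝ, E) ∞ E (fun x : M => TangentSpace 𝓘(ℝ, E) x)]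
  [IsRiemannianManifold 𝓘(ℝ, E) M] in
/-- `ℂⁿ` has a dissipative holomorphic vector field -/
theorem exists_dissipative (F : M ≃ₘ^1⟮𝓘(ℂ, E), 𝓘(ℂ, E)⟯ E) :
    ∃ Z : (x : M) → TangentSpace 𝓘(ℂ, E) x, IsHolField Z ∧ IsDissipativeField E Z := by
  have : ProperSpace E := FiniteDimensional.proper ℂ E
  have hfl := hthom_flow F
  refine ⟨gen (hthom F), gen_field hfl, fun x => ‖F x‖, {F.symm 0}, F.continuous.norm, fun c => ?_,
    isCompact_singleton, fun x hx f hf0 hf => ?_⟩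
  · have h1 : {x : M | ‖F x‖ ≤ c} = F.symm '' closedBall (0 : E) c := by
      ext x
      constructor
      · intro hx
        exact ⟨F x, mem_closedBall_zero_iff.2 hx, F.symm_apply_apply x⟩
      · rintro ⟨z, hz, rfl⟩
        change ‖F (F.symm z)‖ ≤ c
        rw [F.apply_symm_apply]
        exact mem_closedBall_zero_iff.1 hz
    rw [h1]
    exact (isCompact_closedBall 0 c).image F.symm.continuous
  · have h1 := IntAt.uniq (gen_field hfl) hf (Eventually.of_forall (gen_int hfl x))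
      (by rw [hf0, hfl.zero])
    have h2 : Tendsto (fun t : ℝ => (t : ℂ)) (𝓝[>] 0) (𝓝 0) := by
      have h3 := continuous_ofReal.tendsto (0 : ℝ)
      rw [ofReal_zero] at h3
      exact h3.mono_left nhdsWithin_le_nhds
    filter_upwards [h2.eventually h1, self_mem_nhdsWithin] with t ht ht0
    rw [ht]
    have h4 : F (hthom F t x) = exp (-(t : ℂ)) • F x := by
      rw [hthom, F.apply_symm_apply]
    have h5 : ‖exp (-(t : ℂ))‖ = Real.exp (-t) := by
      rw [← ofReal_neg, ← ofReal_exp, norm_real, Real.norm_of_nonneg (Real.exp_pos _).le]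
    rw [h4, norm_smul, h5]
    have h6 : F x ≠ 0 := by
      intro h0
      apply hx
      rw [mem_singleton_iff, ← h0, F.symm_apply_apply]
    have h7 : 0 < ‖F x‖ := norm_pos_iff.2 h6
    have h8 : Real.exp (-t) < 1 := (Real.exp_lt_exp.2 (by linarith [mem_Ioi.1 ht0] : -t < 0)).trans_eq Real.exp_zero
    nlinarith

end Vale.Agent.P253.H22
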