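import Vale.Agent.P253.H22.NMain
import Vale.Agent.P253.H805.Kill
import Vale.Agent.P253.H89.ZZero
import Vale.Agent.P253.H502.ZFlow

/-!
P253: holomorphic vector fields along which the metric does not decrease; Kähler-Ricci solitons.
-/

open scoped Manifold ContDiff Topology Bundle
open Set Metric Complex Filter Bundle IsManifold Manifold Module
  Vale.Agent.P253.Mfd Vale.Agent.P253.CStar Vale.Agent.P253.R2 Vale.Agent.P253.H595
  Vale.Agent.P253.H89 Vale.Agent.P253.H348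

set_option maxSynthPendingDepth 3
set_option linter.unusedSectionVars false

noncomputable section

namespace Vale.Agent.P253.H22

variable {E : Type*} [NormedAddCommGroup E] [NormedSpace ℂ E] [FiniteDimensional ℂ E]
  {M : Type*} [MetricSpace M] [ChartedSpace E M]
  [IsManifold 𝓘(ℂ, E) 1 M] [IsManifold 𝓘(ℝ, E) ∞ M]
  [RiemannianBundle (fun x : M => TangentSpace 𝓘(ℝ, E) x)]
  [IsContMDiffRiemannianBundle 𝓘(ℝ, E) ∞ E (fun x : M => TangentSpace 𝓘(ℝ, E) x)]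
  [IsRiemannianManifold 𝓘(ℝ, E) M] [CompleteSpace M] [NoncompactSpace M] [ConnectedSpace M]
  {Z : (x : M) → TangentSpace 𝓘(ℂ, E) x}

/-- isometric flows are Killing -/
theorem sfun_zero_of_iso (hK : IsKahler E M) (hZ : IsHolField Z) {ψ : ℂ → M → M}
    (hψ : IsHolCFlow E ψ) (hint : ∀ x ζ, IntAt Z (fun w => ψ w x) ζ)
    (hiso : ∀ (t : ℝ) x y, dist (ψ t x) (ψ t y) = dist x y) :
    ∀ e ∈ maximalAtlas 𝓘(ℂ, E) 1 M, ∀ z ∈ e.target, ∀ a,
      Sfun (chartG e) (fun y => comps Z e (e.symm y)) z a = 0 :=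
  H805.sfun_eq_zero_of_isometric hK hZ hψ hint fun t _ x y => by
    have h1 := hiso (-t) x y
    rwa [ofReal_neg] at h1

/-- (4) -/
theorem main_lie (hK : IsKahler E M) (hpos : ∀ x : M, PosBisectionalAt E x)
    (hZ : IsHolField Z) (h : LieNonneg Z) :
    ∃ ψ : ℂ → M → M, IsHolCFlow E ψ ∧ (∀ x ζ, IntAt Z (fun w => ψ w x) ζ) ∧
      ((∀ x, Tendsto (fun t : ℝ => ψ (-t) x) atTop (cocompact M)) ∨
      ((∀ (t : ℝ) x y, dist (ψ t x) (ψ t y) = dist x y) ∧ ¬ LiePosSomewhere Z) ∨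
      ∃ p, (∀ ζ, ψ ζ p = p) ∧
        (∀ C : Set M, IsCompact C → ∀ W ∈ 𝓝 p, ∀ᶠ t : ℝ in atTop, ∀ x ∈ C, ψ (-t) x ∈ W) ∧
        ∃ F : M ≃ₘ^1⟮𝓘(ℂ, E), 𝓘(ℂ, E)⟯ E, F p = 0 ∧
          ∀ v : E, (mfderiv 𝓘(ℂ, E) 𝓘(ℂ, E) F p : E → E) v = v) := by
  obtain ⟨ψ, hψ, hint, hlip⟩ := H502.field_flow hK (fun x => (hpos x).nonneg) hZ
    (sfun_nonneg_of_lieNonneg hK h)
  refine ⟨ψ, hψ, hint, ?_⟩
  rcases flow_tri hK hpos hψ hlip with h1 | h1 | h1
  · exact Or.inl h1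
  · refine Or.inr (Or.inl ⟨h1, fun hp => ?_⟩)
    obtain ⟨e, he, z, hz, a, ha⟩ := sfun_pos_of_liePos hK hp
    rw [sfun_zero_of_iso hK hZ hψ hint h1 e he z hz a] at ha
    exact lt_irrefl _ ha
  · exact Or.inr (Or.inr h1)

theorem not_tendsto_cocompact_const {X α : Type*} [TopologicalSpace X] {l : Filter α} [NeBot l]
    {p : X} : ¬ Tendsto (fun _ : α => p) l (cocompact X) := by
  intro h
  have h1 := h (isCompact_singleton (x := p)).compl_mem_cocompact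
  rw [mem_map] at h1
  obtain ⟨x, hx⟩ := Filter.nonempty_of_mem h1
  exact hx rfl

/-- `L_Z g ≥ 0`, positive somewhere, `Z` has a zero: `M` is `ℂⁿ` -/
theorem main_lie_zero (hK : IsKahler E M) (hpos : ∀ x : M, PosBisectionalAt E x)
    (hZ : IsHolField Z) (h : LieNonneg Z) (hp : LiePosSomewhere Z) (h0 : ∃ p, (Z p : E) = 0) :
    ∃ (ψ : ℂ → M → M) (p : M), IsHolCFlow E ψ ∧ (∀ x ζ, IntAt Z (fun w => ψ w x) ζ) ∧
      (∀ ζ, ψ ζ p = p) ∧
      (∀ C : Set M, IsCompact C → ∀ W ∈ 𝓝 p, ∀ᶠ t : ℝ in atTop, ∀ x ∈ C, ψ (-t) x ∈ W) ∧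
      ∃ F : M ≃ₘ^1⟮𝓘(ℂ, E), 𝓘(ℂ, E)⟯ E, F p = 0 ∧
        ∀ v : E, (mfderiv 𝓘(ℂ, E) 𝓘(ℂ, E) F p : E → E) v = v := by
  obtain ⟨ψ, hψ, hint, h1 | ⟨-, h1⟩ | ⟨p, h1, h2, h3⟩⟩ := main_lie hK hpos hZ h
  · exfalso
    obtain ⟨q, hq⟩ := h0
    have h2 := h1 q
    have h3 : (fun t : ℝ => ψ (-t) q) = fun _ => q := by
      funext t
      exact fixed_of_zero hZ hψ hint hq _
    rw [h3] at h2
    exact not_tendsto_cocompact_const h2
  · exact absurd hp h1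
  · exact ⟨ψ, p, hψ, hint, h1, h2, h3⟩

/-- the model space is not trivial -/
theorem nontrivial_of_noncompact (E : Type*) [NormedAddCommGroup E] [NormedSpace ℂ E] (M : Type*)
    [MetricSpace M] [ChartedSpace E M] [IsManifold 𝓘(ℂ, E) 1 M] [ConnectedSpace M]
    [NoncompactSpace M] : Nontrivial E := by
  by_contra h
  rw [not_nontrivial_iff_subsingleton] at h
  have : Subsingleton M := S445.subsingleton_of (E := E)
  exact not_compactSpace_iff.2 ‹NoncompactSpace M› inferInstance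

theorem IsRicciSoliton.lieNonneg (hK : IsKahler E M) (hnn : ∀ x : M, NonnegBisectionalAt E x)
    {lam : ℝ} (hs : IsRicciSoliton E Z lam) (hlam : lam ≤ 0) : LieNonneg Z := by
  intro e he z hz Γ hΓ a
  rw [← Sfun_comps hK he hz hΓ]
  exact hs.Sfun_nonneg hK hlam he hz (hnn _) a

theorem IsRicciSoliton.liePos (hK : IsKahler E M) (hpos : ∀ x : M, PosBisectionalAt E x)
    {lam : ℝ} (hs : IsRicciSoliton E Z lam) (hlam : lam ≤ 0) : LiePosSomewhere Z := by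
  have hnt := nontrivial_of_noncompact E M
  obtain ⟨a, ha⟩ := exists_ne (0 : E)
  obtain ⟨x⟩ : Nonempty M := inferInstance
  have hz := (chartAt E x).map_source (mem_chart_source E x)
  have he : chartAt E x ∈ maximalAtlas 𝓘(ℂ, E) 1 M := chart_mem_maximalAtlas x
  obtain ⟨Γ, hΓ⟩ := exists_christoffel hK he hz
  refine ⟨chartAt E x, he, _, hz, Γ, hΓ, a, ?_⟩
  rw [← Sfun_comps hK he hz hΓ]
  exact hs.Sfun_pos hK hlam he hz (hpos _) ha

theorem LieGe.lieNonneg {c : ℝ} (hc : 0 ≤ c) (h : LieGe Z c) :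
    LieNonneg Z := by
  intro e he z hz Γ hΓ a
  refine le_trans (mul_nonneg hc ?_) (h e he z hz Γ hΓ a)
  rw [← chartG_apply]
  rcases eq_or_ne a 0 with rfl | ha
  · simp
  · exact (chartG_pos (mem_maximalAtlas_real he) hz a ha).le

theorem LieGe.liePos (hK : IsKahler E M) {c : ℝ} (hc : 0 < c) (h : LieGe Z c) :
    LiePosSomewhere Z := by
  have hnt := nontrivial_of_noncompact E M
  obtain ⟨a, ha⟩ := exists_ne (0 : E)
  obtain ⟨x⟩ : Nonempty M := inferInstance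
  have hz := (chartAt E x).map_source (mem_chart_source E x)
  have he : chartAt E x ∈ maximalAtlas 𝓘(ℂ, E) 1 M := chart_mem_maximalAtlas x
  obtain ⟨Γ, hΓ⟩ := exists_christoffel hK he hz
  refine ⟨chartAt E x, he, _, hz, Γ, hΓ, a, (mul_pos hc ?_).trans_le (h _ he _ hz Γ hΓ a)⟩
  rw [← chartG_apply]
  exact chartG_pos (mem_maximalAtlas_real he) hz a ha

theorem IsRicciSoliton.lieGe (hK : IsKahler E M) (hnn : ∀ x : M, NonnegBisectionalAt E x)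
    {lam : ℝ} (hs : IsRicciSoliton E Z lam) : LieGe Z (-lam) := by
  intro e he z hz Γ hΓ a
  obtain ⟨b, hb⟩ := exists_orthonormalAt (e := e) he hz
  rw [← Sfun_comps hK he hz hΓ, hs.Sfun_eq hK he hz hb, ← chartG_apply]
  have h1 : 0 ≤ ∑ i, Rc (chartG e) z (b i) a :=
    Finset.sum_nonneg fun i _ => Rc_nonneg_chartG hK he hz (hnn _) _ _
  linarith

/-- (5) -/
theorem main_soliton (hK : IsKahler E M) (hpos : ∀ x : M, PosBisectionalAt E x)
    (hZ : IsHolField Z)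
    (h : (∃ c, 0 < c ∧ LieGe Z c) ∨ ∃ lam, IsRicciSoliton E Z lam ∧
      (lam < 0 ∨ (lam = 0 ∧ ∃ p, (Z p : E) = 0))) :
    ∃ (ψ : ℂ → M → M) (p : M), IsHolCFlow E ψ ∧ (∀ x ζ, IntAt Z (fun w => ψ w x) ζ) ∧
      (∀ ζ, ψ ζ p = p) ∧
      (∀ C : Set M, IsCompact C → ∀ W ∈ 𝓝 p, ∀ᶠ t : ℝ in atTop, ∀ x ∈ C, ψ (-t) x ∈ W) ∧
      ∃ F : M ≃ₘ^1⟮𝓘(ℂ, E), 𝓘(ℂ, E)⟯ E, F p = 0 ∧
        ∀ v : E, (mfderiv 𝓘(ℂ, E) 𝓘(ℂ, E) F p : E → E) v = v := by
  have hP : ProperSpace M := properSpace_riemannian E M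
  obtain ⟨x₀⟩ : Nonempty M := inferInstance
  have hge : ∀ c, 0 < c → LieGe Z c → _ := fun c hc hl =>
    main_lie_zero hK hpos hZ (LieGe.lieNonneg hc.le hl) (LieGe.liePos hK hc hl)
      (H89.exists_zero_of_expanding hK x₀ hZ hc (sfun_ge_of_lieGe hK hl))
  rcases h with ⟨c, hc, hl⟩ | ⟨lam, hs, hlam | ⟨rfl, hz⟩⟩
  · exact hge c hc hl
  · exact hge (-lam) (by linarith) (IsRicciSoliton.lieGe hK (fun x => (hpos x).nonneg) hs)
  · exact main_lie_zero hK hpos hZ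
      (IsRicciSoliton.lieNonneg hK (fun x => (hpos x).nonneg) hs le_rfl)
      (IsRicciSoliton.liePos hK hpos hs le_rfl) hz

end Vale.Agent.P253.H22
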