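import Vale.Agent.P253.H22.NG
import Vale.Agent.P253.H51.CartanB
import Vale.Agent.P253.H805.IsoB

/-!
P253: commutative groups of automorphisms with bounded orbits and without invariant polynomials.
-/

open scoped Manifold ContDiff Topology Bundle
open Set Metric Complex Filter Bundle IsManifold Manifold Module
  Vale.Agent.P253.Mfd Vale.Agent.P253.CStar Vale.Agent.P253.R2 Vale.Agent.P253.H595

set_option maxSynthPendingDepth 3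
set_option linter.unusedSectionVars false

noncomputable section

namespace Vale.Agent.P253.H22

variable {E : Type*} [NormedAddCommGroup E] [NormedSpace ℂ E] [FiniteDimensional ℂ E]
  {M : Type*} [MetricSpace M] [ChartedSpace E M]
  [IsManifold 𝓘(ℂ, E) 1 M] [IsManifold 𝓘(ℝ, E) ∞ M]
  [RiemannianBundle (fun x : M => TangentSpace 𝓘(ℝ, E) x)]
  [IsContMDiffRiemannianBundle 𝓘(ℝ, E) ∞ E (fun x : M => TangentSpace 𝓘(ℝ, E) x)]
  [IsRiemannianManifold 𝓘(ℝ, E) M] [CompleteSpace M] [NoncompactSpace M] [ConnectedSpace M]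

/-- commutative groups of automorphisms with bounded orbits -/
theorem main_group (hK : IsKahler E M) (hpos : ∀ x : M, PosBisectionalAt E x) {p : M}
    {G : Set (M → M)}
    (hG : ∀ g ∈ G, MDifferentiable 𝓘(ℂ, E) 𝓘(ℂ, E) g ∧ g p = p)
    (hmul : ∀ g ∈ G, ∀ h ∈ G, g ∘ h ∈ G ∧ ∀ x, g (h x) = h (g x))
    (hinvG : ∀ g ∈ G, ∃ h ∈ G, ∀ x, h (g x) = x)
    (hB : ∀ C : Set M, IsCompact C → ∃ C' : Set M, IsCompact C' ∧ ∀ g ∈ G, ∀ x ∈ C, g x ∈ C')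
    (hinv : ∀ (k : ℕ) (q : MultilinearMap ℂ (fun _ : Fin k => E) ℂ), 0 < k →
      (∀ g ∈ G, ∀ v : E, q (fun _ => (mfderiv 𝓘(ℂ, E) 𝓘(ℂ, E) g p : E → E) v) =
        q (fun _ => v)) → ∀ v, q (fun _ => v) = 0) :
    ∃ F : M ≃ₘ^1⟮𝓘(ℂ, E), 𝓘(ℂ, E)⟯ E, F p = 0 ∧
      ∀ v : E, (mfderiv 𝓘(ℂ, E) 𝓘(ℂ, E) F p : E → E) v = v := by
  have hP : ProperSpace M := properSpace_riemannian E M
  have hnn : ∀ x : M, NonnegBisectionalAt E x := fun x => (hpos x).nonneg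
  have hit : ∀ f ∈ G, ∀ k : ℕ, f^[k] ∈ G := by
    intro f hf k
    induction k with
    | zero =>
      obtain ⟨h, hh, hhf⟩ := hinvG f hf
      have h1 : h ∘ f = id := funext hhf
      rw [Function.iterate_zero, ← h1]
      exact (hmul h hh f hf).1
    | succ k ih =>
      rw [Function.iterate_succ]
      exact (hmul _ ih f hf).1
  have hS : ∀ f ∈ G, MDifferentiable 𝓘(ℂ, E) 𝓘(ℂ, E) f ∧ f p = p ∧
      ∀ ε : ℝ, ε > 0 → ∃ U ∈ 𝓝 p, ∀ k : ℕ, ∀ x ∈ U, dist (f^[k] x) p < ε := by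
    intro f hf
    refine ⟨(hG f hf).1, (hG f hf).2, fun ε hε => ?_⟩
    obtain ⟨U, hU, h⟩ := H836.equi_of_bdd hK hnn hpos (fun g hg => (hG g hg).1) hB p ε hε
    refine ⟨U, hU, fun k x hx => ?_⟩
    have h1 := h _ (hit f hf k) x hx p (mem_of_mem_nhds hU)
    rwa [(hG _ (hit f hf k)).2] at h1
  obtain ⟨b, lam, -, hlam⟩ := H51.exists_common_eigenbasis_bdd hS
    (fun f hf g hg => (hmul f hf g hg).2) hinvG
  refine H805.main_bdd hK hnn hpos hG (fun g hg h hh => (hmul g hg h hh).1) hinvG hB hlam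
    fun a ha => ?_
  let D : (M → M) → (E →L[ℂ] E) := fun f => mfderiv 𝓘(ℂ, E) 𝓘(ℂ, E) f p
  exact exists_monomial_ne b (T := fun f : M → M => (D f).toLinearMap) hlam hinv ha

/-- (5) -/
theorem main_tfae' (hK : IsKahler E M) (hpos : ∀ x : M, PosBisectionalAt E x) :
    List.TFAE [Nonempty (M ≃ₘ^1⟮𝓘(ℂ, E), 𝓘(ℂ, E)⟯ E),
      ∃ f : M → M, MDifferentiable 𝓘(ℂ, E) 𝓘(ℂ, E) f ∧ Function.Bijective f ∧
        ∃ K : Set M, IsCompact K ∧ ∀ x, ∃ k : ℕ, f^[k] x ∈ K,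
      ∃ G : Set (M ≃ₘ^1⟮𝓘(ℂ, E), 𝓘(ℂ, E)⟯ M), (∀ g ∈ G, ∀ h ∈ G, ∀ x, g (h x) = h (g x)) ∧
        ∃ K : Set M, IsCompact K ∧ ∀ C : Set M, IsCompact C → ∃ g ∈ G, ∀ x ∈ C, g x ∈ K,
      ∃ (p : M) (G : Set (M → M)),
        (∀ g ∈ G, MDifferentiable 𝓘(ℂ, E) 𝓘(ℂ, E) g ∧ g p = p) ∧
        (∀ g ∈ G, ∀ h ∈ G, g ∘ h ∈ G ∧ ∀ x, g (h x) = h (g x)) ∧
        (∀ g ∈ G, ∃ h ∈ G, ∀ x, h (g x) = x) ∧
        (∀ C : Set M, IsCompact C → ∃ C' : Set M, IsCompact C' ∧ ∀ g ∈ G, ∀ x ∈ C, g x ∈ C') ∧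
        ∀ (k : ℕ) (q : MultilinearMap ℂ (fun _ : Fin k => E) ℂ), 0 < k →
          (∀ g ∈ G, ∀ v : E, q (fun _ => (mfderiv 𝓘(ℂ, E) 𝓘(ℂ, E) g p : E → E) v) =
            q (fun _ => v)) → ∀ v, q (fun _ => v) = 0,
      ∃ Z : (x : M) → TangentSpace 𝓘(ℂ, E) x, IsHolField Z ∧ IsDissipativeField E Z] := by
  have h0 := main_tfae hK hpos
  tfae_have 1 ↔ 2 := h0.out 0 1
  tfae_have 1 ↔ 3 := h0.out 0 2
  tfae_have 1 ↔ 5 := h0.out 0 4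
  tfae_have 1 → 4 := by
    rintro ⟨F⟩
    exact exists_group F
  tfae_have 4 → 1 := by
    rintro ⟨p, G, h1, h2, h3, h4, h5⟩
    obtain ⟨F, -⟩ := main_group hK hpos h1 h2 h3 h4 h5
    exact ⟨F⟩
  tfae_finish

end Vale.Agent.P253.H22
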