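import Vale.Agent.P253.H22.Zero

/-!
P253: a compact set of local minima of a Killing potential is a nondegenerate minimum (positive
bisectional curvature, noncompact manifold).
-/

open scoped Manifold ContDiff Topology Bundle
open Set Metric Complex Filter Bundle IsManifold Manifold Module Vale.Agent.P253.Mfd
  Vale.Agent.P253.H577

set_option maxSynthPendingDepth 3
set_option linter.unusedSectionVars false

noncomputable section

namespace Vale.Agent.P253.H22

variable {E : Type*} [NormedAddCommGroup E] [NormedSpace ℂ E] [FiniteDimensional ℂ E]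
  {M : Type*} [MetricSpace M] [ChartedSpace E M]
  [IsManifold 𝓘(ℂ, E) 1 M] [IsManifold 𝓘(ℝ, E) ∞ M]
  [RiemannianBundle (fun x : M => TangentSpace 𝓘(ℝ, E) x)]
  [IsContMDiffRiemannianBundle 𝓘(ℝ, E) ∞ E (fun x : M => TangentSpace 𝓘(ℝ, E) x)]
  {ρ : ℝ → M → M} {e e' : OpenPartialHomeomorph M E} {lam : ℝ} {h : M → ℝ}

/-- the gradient of `h` is the field `V = -JX`, `X` the generator of `ρ` -/
def IsGradOf (ρ : ℝ → M → M) (h : M → ℝ) : Prop :=
  ∀ e ∈ maximalAtlas 𝓘(ℂ, E) 1 M, ∀ z ∈ e.target,
    HasFDerivAt (fun y : E => h (e.symm y)) (chartG e z (vF ρ e z)) z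

/-- real weights at a fixed point -/
theorem exists_real_weights (hK : IsKahler E M) [IsRiemannianManifold 𝓘(ℝ, E) M]
    (hρ : IsHolIsomFlow E ρ) {p : M}
    (hfix : ∀ t, ρ t p = p) :
    ∃ (b : Basis (Fin (finrank ℂ E)) ℂ E) (m : Fin (finrank ℂ E) → ℝ),
      ∀ (t : ℝ) j, mfderiv 𝓘(ℂ, E) 𝓘(ℂ, E) (ρ t) p (b j) = exp (t * m j * I) • b j := by
  have hact := toAction hρ
  have he : chartAt E p ∈ maximalAtlas 𝓘(ℂ, E) 1 M := chart_mem_maximalAtlas p
  have hx : p ∈ (chartAt E p).source := mem_chart_source E p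
  have hz : chartAt E p p ∈ (chartAt E p).target := mem_chart_target E p
  have hLK := localKahler_chartG hK he
  have hL := commFam_vL hact he
  have hx0 : xF ρ (chartAt E p) (chartAt E p p) = 0 := by
    have h1 : (fun t : ℝ => chartAt E p (ρ t ((chartAt E p).symm (chartAt E p p)))) =
        fun _ => chartAt E p p := by
      funext t
      rw [(chartAt E p).left_inv hx, hfix]
    rw [xF, h1, deriv_const]
  have hv0 : vF ρ (chartAt E p) (chartAt E p p) = 0 := by
    rw [vF, hx0, smul_zero, neg_zero]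
  have hvL1 : vL (V := ℝ) ρ (chartAt E p) (chartAt E p p) 1 = 0 := by
    rw [vL_apply hact he hz, ln_real, hv0]
  have hzero : ∀ κ : ℝ, vL (V := ℝ) ρ (chartAt E p) (chartAt E p p) κ = 0 := fun κ => by
    have h1 : κ = κ • (1 : ℝ) := by simp
    rw [h1, map_smul, hvL1, smul_zero]
  obtain ⟨b, r, hr⟩ := hL.exists_weights hLK hz hzero
  have hev : (fun z => vL (V := ℝ) ρ (chartAt E p) z 1) =ᶠ[𝓝 (chartAt E p p)]
      vF ρ (chartAt E p) := by
    filter_upwards [(chartAt E p).open_target.mem_nhds hz] with z hz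
    rw [vL_apply hact he hz, ln_real]
  have hder : ∀ j, fderiv ℝ (vF ρ (chartAt E p)) (chartAt E p p) (b j) = r j 1 • b j := by
    intro j
    rw [← hr, hev.fderiv_eq]
  refine ⟨b, fun j => r j 1, fun t j => ?_⟩
  have h1 := mfderiv_eq_TF hρ hfix t (b j)
  rw [TF_eigen hρ he hx hfix (hder j) t] at h1
  exact h1

/-- a local minimum of the potential is a fixed point -/
theorem fixed_of_min (hρ : IsHolIsomFlow E ρ) (hgrad : IsGradOf (E := E) ρ h) {x : M}
    (hmin : ∀ᶠ y in 𝓝 x, h x ≤ h y) (t : ℝ) : ρ t x = x := by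
  have he : chartAt E x ∈ maximalAtlas 𝓘(ℂ, E) 1 M := chart_mem_maximalAtlas x
  have hx : x ∈ (chartAt E x).source := mem_chart_source E x
  set e := chartAt E x with hedef
  have her := mem_maximalAtlas_real he
  have hz : e x ∈ e.target := e.map_source hx
  have h1 := hgrad e he (e x) hz
  have h2 : IsLocalMin (fun y : E => h (e.symm y)) (e x) := by
    have h3 : ContinuousAt e.symm (e x) := e.continuousAt_symm hz
    have h4 : Tendsto e.symm (𝓝 (e x)) (𝓝 x) := by
      have := h3.tendsto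
      rwa [e.left_inv hx] at this
    have h5 := h4.eventually hmin
    filter_upwards [h5] with y hy
    rwa [e.left_inv hx]
  have h3 := h2.hasFDerivAt_eq_zero h1
  have h4 : vF ρ e (e x) = 0 := by
    by_contra hne
    have h5 := chartG_pos her hz _ hne
    rw [h3] at h5
    simp at h5
  exact fixed_of_zero hρ he hx h4 t

variable [IsRiemannianManifold 𝓘(ℝ, E) M]

/-- the Levi form of the distance to a far point is negative, uniformly on compact sets -/
theorem levi_uniform (hK : IsKahler E M) [ProperSpace M] (hnn : ∀ x : M, NonnegBisectionalAt E x)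
    (hpos : ∀ x : M, PosBisectionalAt E x) {N : Set M} (hN : IsCompact N) :
    ∃ L : ℝ, ∀ x ∈ N, ∀ q : M, L ≤ dist x q → ∃ c > 0, LeviBound (E := E) q x (-c) := by
  refine hN.induction_on (p := fun S => ∃ L : ℝ, ∀ x ∈ S, ∀ q : M, L ≤ dist x q →
    ∃ c > 0, LeviBound (E := E) q x (-c)) ⟨0, fun x hx => absurd hx (notMem_empty x)⟩ ?_ ?_ ?_
  · rintro s t hst ⟨L, hL⟩
    exact ⟨L, fun x hx => hL x (hst hx)⟩
  · rintro s t ⟨L, hL⟩ ⟨L', hL'⟩
    refine ⟨max L L', fun x hx q hq => ?_⟩
    rcases hx with hx | hx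
    · exact hL x hx q ((le_max_left _ _).trans hq)
    · exact hL' x hx q ((le_max_right _ _).trans hq)
  · intro x _
    obtain ⟨r, hr, c, hc, L₀, -, hlevi⟩ := levi_strict hK hnn (hpos x)
    exact ⟨ball x r, mem_nhdsWithin_of_mem_nhds (ball_mem_nhds x hr), L₀,
      fun y hy q hq => ⟨c, hc, hlevi y hy q hq⟩⟩

/-- **a compact set of local minima** of a Killing potential is a nondegenerate minimum -/
theorem exists_weights_of_min (hK : IsKahler E M) [CompleteSpace M] [NoncompactSpace M]
    (hnn : ∀ x : M, NonnegBisectionalAt E x) (hpos : ∀ x : M, PosBisectionalAt E x)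
    (hρ : IsHolIsomFlow E ρ) (hgrad : IsGradOf (E := E) ρ h) {N O : Set M} {c : ℝ}
    (hN : IsCompact N) (hNe : N.Nonempty) (hO : IsOpen O) (hNO : N ⊆ O)
    (hc : ∀ x ∈ N, h x = c) (hlt : ∀ x ∈ O \ N, c < h x) :
    ∃ p ∈ N, ∃ (b : Basis (Fin (finrank ℂ E)) ℂ E) (m : Fin (finrank ℂ E) → ℝ),
      HasWeights ρ p b m := by
  have hP : ProperSpace M := properSpace_riemannian E M
  have hge : ∀ x ∈ O, c ≤ h x := by
    intro x hx
    by_cases hxN : x ∈ N
    · exact (hc x hxN).ge
    · exact (hlt x ⟨hx, hxN⟩).le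
  obtain ⟨L, hL⟩ := levi_uniform hK hnn hpos hN
  obtain ⟨x₀, hx₀⟩ := hNe
  obtain ⟨R, hR⟩ := hN.isBounded.subset_closedBall x₀
  obtain ⟨q, hq⟩ := exists_far (M := M) x₀ (L + R)
  have hqN : ∀ x ∈ N, L ≤ dist x q := by
    intro x hx
    have h1 : dist x x₀ ≤ R := hR hx
    have h2 := dist_triangle x₀ x q
    rw [dist_comm x₀ x] at h2
    linarith
  obtain ⟨p, hpN, hpmin⟩ := hN.exists_isMinOn ⟨x₀, hx₀⟩
    (f := fun x => dist x q) (by fun_prop : Continuous fun x : M => dist x q).continuousOn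
  have hpmin' : ∀ x ∈ N, dist p q ≤ dist x q := fun x hx => hpmin hx
  obtain ⟨c', hc', hlevi⟩ := hL p hpN q (hqN p hpN)
  have hfix : ∀ t, ρ t p = p := fixed_of_min hρ hgrad (by
    filter_upwards [hO.mem_nhds (hNO hpN)] with y hy
    rw [hc p hpN]
    exact hge y hy)
  obtain ⟨b, m, hw⟩ := exists_real_weights hK hρ hfix
  refine ⟨p, hpN, b, m, hfix, fun j => ?_, hw⟩
  set φ : E ≃L[ℂ] (Fin (finrank ℂ E) → ℂ) := b.equivFun.toContinuousLinearEquiv with hφ
  have hw' := Vale.Agent.P253.U165.weights_LE hw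
  obtain ⟨e₀, he₀, δ, hδ, hpe, hep, htgt, hequiv⟩ := exists_linearizing_chart hρ hfix φ m hw'
  have her₀ := mem_maximalAtlas_real he₀
  have hvlin : ∀ z ∈ e₀.target, vF ρ e₀ z = AE φ m z := fun z hz => vF_linear hρ hequiv hz
  have hφa : φ (b j) = Pi.single j 1 := by
    rw [hφ]
    change b.equivFun (b j) = Pi.single j 1
    funext i
    rw [Basis.equivFun_self, Pi.single_apply]
    simp only [eq_comm]
  have hane : b j ≠ 0 := b.ne_zero j
  have h0t : (0 : E) ∈ e₀.target := by rw [← hep]; exact e₀.map_source hpe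
  have hsy0 : e₀.symm 0 = p := by rw [← hep, e₀.left_inv hpe]
  have hAE : ∀ w : ℂ, AE φ m (w • b j) = (w * m j) • b j := by
    intro w
    apply ext_coord (φ := φ)
    intro i
    rw [AE_coord, map_smul, map_smul, hφa]
    simp only [Pi.smul_apply, smul_eq_mul, Pi.single_apply]
    split_ifs with hij
    · rw [hij]; ring
    · simp
  -- small multiples of `b j` are in the target, and their images are in `O`
  have hsmall : ∀ᶠ w : ℂ in 𝓝 0, w • b j ∈ e₀.target ∧ e₀.symm (w • b j) ∈ O := by
    have h1 : ContinuousAt (fun w : ℂ => w • b j) 0 := by fun_prop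
    have h2 : Tendsto (fun w : ℂ => w • b j) (𝓝 0) (𝓝 0) := by
      have := h1.tendsto
      simpa using this
    have h3 : Tendsto e₀.symm (𝓝 0) (𝓝 p) := by
      have := (e₀.continuousAt_symm h0t).tendsto
      rwa [hsy0] at this
    exact (h2.eventually (e₀.open_target.mem_nhds h0t)).and
      ((h3.comp h2).eventually (hO.mem_nhds (hNO hpN)))
  obtain ⟨r, hr, hball⟩ := Metric.eventually_nhds_iff_ball.1 hsmall
  -- derivative of `h` along a segment
  have hder : ∀ w ∈ ball (0:ℂ) r, ∀ s ∈ Icc (0:ℝ) 1,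
      HasDerivAt (fun s : ℝ => h (e₀.symm (((s : ℂ) * w) • b j)))
        (chartG e₀ (((s : ℂ) * w) • b j) (((s : ℂ) * w * m j) • b j) (w • b j)) s := by
    intro w hw s hs
    have hsw : (s : ℂ) * w ∈ ball (0:ℂ) r := by
      rw [mem_ball_zero_iff] at hw ⊢
      rw [norm_mul, norm_real, Real.norm_of_nonneg hs.1]
      nlinarith [hs.2, norm_nonneg w]
    have h1 := hgrad e₀ he₀ _ (hball _ hsw).1
    rw [hvlin _ (hball _ hsw).1, hAE] at h1
    have h2 : HasDerivAt (fun s : ℝ => ((s : ℂ) * w) • b j) (w • b j) s := by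
      have h3 : HasDerivAt (fun s : ℝ => (s : ℂ) * w) w s := by
        simpa using ((hasDerivAt_id s).ofReal_comp).mul_const w
      exact h3.smul_const (b j)
    exact HasFDerivAt.comp_hasDerivAt (f := fun s : ℝ => ((s : ℂ) * w) • b j) s h1 h2
  by_contra hneg
  push Not at hneg
  rcases hneg.lt_or_eq with hneg | hzero
  · -- a negative weight: `h` decreases
    set w : ℂ := ((r / 2 : ℝ) : ℂ) with hwdef
    have hwb : w ∈ ball (0:ℂ) r := by
      rw [mem_ball_zero_iff, hwdef, norm_real, Real.norm_of_nonneg (by linarith)]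
      linarith
    have hanti : StrictAntiOn (fun s : ℝ => h (e₀.symm (((s : ℂ) * w) • b j))) (Icc (0:ℝ) 1) := by
      apply strictAntiOn_of_deriv_neg (convex_Icc 0 1)
      · exact fun s hs => (hder w hwb s hs).continuousAt.continuousWithinAt
      · intro s hs
        rw [interior_Icc] at hs
        have hs' : s ∈ Icc (0:ℝ) 1 := Ioo_subset_Icc_self hs
        rw [(hder w hwb s hs').deriv]
        have hsw : (s : ℂ) * w ∈ ball (0:ℂ) r := by
          rw [mem_ball_zero_iff] at hwb ⊢
          rw [norm_mul, norm_real, Real.norm_of_nonneg hs'.1]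
          nlinarith [hs'.2, norm_nonneg w]
        have h1 : ((s : ℂ) * w * m j) • b j = (s * m j) • (w • b j) := by
          rw [← Complex.coe_smul, smul_smul]
          congr 1
          push_cast
          ring
        have h4 := map_smul (chartG e₀ (((s : ℂ) * w) • b j)) (s * m j) (w • b j)
        rw [h1, h4, smul_apply, smul_eq_mul]
        have h2 : w • b j ≠ 0 := by
          apply smul_ne_zero _ hane
          rw [hwdef]
          exact_mod_cast (by linarith : (r / 2 : ℝ) ≠ 0)
        have h3 := chartG_pos her₀ (hball _ hsw).1 _ h2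
        exact mul_neg_of_neg_of_pos (mul_neg_of_pos_of_neg hs.1 hneg) h3
    have h1 := hanti (left_mem_Icc.2 zero_le_one) (right_mem_Icc.2 zero_le_one) one_pos
    simp only [ofReal_one, one_mul, ofReal_zero, zero_mul, zero_smul] at h1
    rw [hsy0, hc p hpN] at h1
    exact absurd (hge _ (hball w hwb).2) (not_le.2 h1)
  · -- a zero weight: a disc of fixed points in `N`
    have hdisc : ∀ w ∈ ball (0:ℂ) r, e₀.symm (w • b j) ∈ N := by
      intro w hwb
      have h1 := constant_of_has_deriv_right_zero (a := (0:ℝ)) (b := 1)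
        (f := fun s : ℝ => h (e₀.symm (((s : ℂ) * w) • b j)))
        (fun s hs => (hder w hwb s hs).continuousAt.continuousWithinAt)
        (fun s hs => by
          have h2 := hder w hwb s (Ico_subset_Icc_self hs)
          rw [hzero, ofReal_zero, mul_zero, zero_smul, map_zero] at h2
          exact h2.hasDerivWithinAt) 1 (right_mem_Icc.2 zero_le_one)
      simp only [ofReal_one, one_mul, ofReal_zero, zero_mul, zero_smul] at h1
      rw [hsy0, hc p hpN] at h1
      by_contra hcon
      exact absurd (hlt _ ⟨(hball w hwb).2, hcon⟩) (by rw [h1]; exact lt_irrefl _)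
    have hG := chartG_pos her₀ h0t _ hane
    -- the harmonic family
    set a : ℝ → Fin 4 → M := fun s k => e₀.symm (((s : ℂ) * I ^ (k:ℕ)) • b j) with ha
    have hev : ∀ᶠ s : ℝ in 𝓝[>] (0:ℝ), ∀ k : Fin 4, (s : ℂ) * I ^ (k:ℕ) ∈ ball (0:ℂ) r := by
      filter_upwards [Ioo_mem_nhdsGT hr] with s hs k
      rw [mem_ball_zero_iff, norm_mul, norm_pow, norm_I, one_pow, mul_one, norm_real,
        Real.norm_of_nonneg hs.1.le]
      exact hs.2
    have hharm : Harm e₀ p (b j) a := by
      refine ⟨?_, ?_⟩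
      · filter_upwards [hev] with s hs k
        exact e₀.map_target (hball _ (hs k)).1
      · refine isSmall_zero.congr ?_
        filter_upwards [hev] with s hs k
        simp only [ha]
        rw [e₀.right_inv (hball _ (hs k)).1, hep, mul_smul, Complex.coe_smul]
        abel
    have h1 := hlevi e₀ he₀ hpe (b j) a hharm (c' * chartG e₀ 0 (b j) (b j) / 2) (by positivity)
    obtain ⟨s, ⟨hs1, hs2⟩, hs3⟩ := ((h1.and hev).and self_mem_nhdsWithin).exists
    have h2 : 4 * dist p q ≤ ∑ k, dist (a s k) q := by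
      have h3 : ∑ _k : Fin 4, dist p q = 4 * dist p q := by simp
      rw [← h3]
      exact Finset.sum_le_sum fun k _ => hpmin' _ (hdisc _ (hs2 k))
    rw [hep] at hs1
    have h4 : 0 < s ^ 2 := pow_pos hs3 2
    have h5 : 0 < c' * chartG e₀ 0 (b j) (b j) := by positivity
    have h6 := mul_pos h4 h5
    nlinarith

end Vale.Agent.P253.H22
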