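import Vale.Agent.P253.H22.Lyap
import Vale.Agent.P253.H22.Min
import Vale.Agent.P253.H348.LemZ
import Vale.Agent.P253.H805.Near
import Vale.Agent.P253.H89.Dyn
import Vale.Agent.P253.H661.Bij
import Vale.Agent.P253.H502.Diss
import Vale.Agent.P253.H89.Fin
import Vale.Agent.P253.H445.Osg

/-!
P253: dissipative holomorphic dynamics on complete Kähler manifolds of positive bisectional
curvature: final statements.
-/

open scoped Manifold ContDiff Topology Bundle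
open Set Metric Complex Filter Bundle IsManifold Manifold Module
  Vale.Agent.P253.Mfd Vale.Agent.P253.CStar Vale.Agent.P253.R2 Vale.Agent.P253.H595

set_option maxSynthPendingDepth 3
set_option linter.unusedSectionVars false

noncomputable section

namespace Vale.Agent.P253.H22

variable {E : Type*} [NormedAddCommGroup E] [NormedSpace ℂ E] [FiniteDimensional ℂ E]
  {M : Type*} [MetricSpace M] [ChartedSpace E M]
  [IsManifold 𝓘(ℂ, E) 1 M] [IsManifold 𝓘(ℝ, E) ∞ M]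
  [RiemannianBundle (fun x : M => TangentSpace 𝓘(ℝ, E) x)]
  [IsContMDiffRiemannianBundle 𝓘(ℝ, E) ∞ E (fun x : M => TangentSpace 𝓘(ℝ, E) x)]
  [IsRiemannianManifold 𝓘(ℝ, E) M] [CompleteSpace M] [NoncompactSpace M]

/-- a far point is near maximal -/
theorem exists_nearMax (hK : IsKahler E M) (hnn : ∀ x : M, NonnegBisectionalAt E x)
    (hpos : ∀ x : M, PosBisectionalAt E x) {Q : Set M} (hQ : IsCompact Q) :
    ∃ q, H89.NearMax E Q q := by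
  have hP : ProperSpace M := properSpace_riemannian E M
  obtain ⟨x₀⟩ : Nonempty M := by
    by_contra h
    rw [not_nonempty_iff] at h
    exact not_compactSpace_iff.2 ‹NoncompactSpace M› inferInstance
  obtain ⟨c, hc, L, -, hlev⟩ := H348.levi_strict_compact hK hnn hQ fun x _ => hpos x
  obtain ⟨R, hR⟩ := hQ.isBounded.subset_closedBall x₀
  obtain ⟨q, hq⟩ := exists_far (M := M) x₀ (L + R)
  refine ⟨q, fun ε hε => H805.near_max hK hQ hc (fun x hx => hlev x hx q ?_) hε⟩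
  have h1 : dist x x₀ ≤ R := hR hx
  have h2 := dist_triangle x₀ x q
  rw [dist_comm x₀ x] at h2
  linarith

variable [ConnectedSpace M]

/-- (1) -/
theorem attracts_of_pos (hK : IsKahler E M) (hpos : ∀ x : M, PosBisectionalAt E x) :
    H502.Attracts E M := by
  have hnn : ∀ x : M, NonnegBisectionalAt E x := fun x => (hpos x).nonneg
  have : ProperSpace E := FiniteDimensional.proper ℂ E
  have hP : ProperSpace M := properSpace_riemannian E M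
  intro f hf hmeet
  exact H89.attract_compact hf hmeet fun Q hQ => exists_nearMax hK hnn hpos hQ

/-- (1), (2) -/
theorem main_map (hK : IsKahler E M) (hpos : ∀ x : M, PosBisectionalAt E x)
    {f : M → M} (hf : MDifferentiable 𝓘(ℂ, E) 𝓘(ℂ, E) f)
    (hmeet : ∃ K : Set M, IsCompact K ∧ ∀ x, ∃ k : ℕ, f^[k] x ∈ K) :
    ∃ p, f p = p ∧
      (∀ C : Set M, IsCompact C → ∀ W ∈ 𝓝 p, ∀ᶠ k : ℕ in atTop, ∀ x ∈ C, f^[k] x ∈ W) ∧
      (Function.Injective f → ∃ e ∈ maximalAtlas 𝓘(ℂ, E) 1 M, e.source = univ ∧ e p = 0 ∧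
        ∃ N : ℕ, 0 < N ∧ ∃ G G' : E → E, Differentiable ℂ G ∧ Differentiable ℂ G' ∧
          (∀ w, G' (G w) = w) ∧ (∀ w, G (G' w) = w) ∧
          (∀ w, Tendsto (fun k : ℕ => G^[k] w) atTop (𝓝 0)) ∧
          (∀ x, e (f^[N] x) = G (e x)) ∧ ∀ w, ∃ k : ℕ, G^[k] w ∈ e.target) ∧
      (Function.Bijective f → ∃ F : M ≃ₘ^1⟮𝓘(ℂ, E), 𝓘(ℂ, E)⟯ E, F p = 0 ∧
        ∀ v : E, (mfderiv 𝓘(ℂ, E) 𝓘(ℂ, E) F p : E → E) v = v) := by
  have hO : H661.Osg E := fun U h => H445.osg_self U h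
  obtain ⟨p, hp, hc⟩ := attracts_of_pos hK hpos f hf hmeet
  refine ⟨p, hp, hc, fun hinj => ?_, fun hb => ?_⟩
  · obtain ⟨e, he, hs, he0, hG, -⟩ := H661.exists_domain hO hf hinj hp hc
    exact ⟨e, he, hs, he0, hG⟩
  · exact H661.exists_diffeo_of_attracts_bijective hO hf hb hp hc

/-- (3) -/
theorem main_semi (hK : IsKahler E M) (hpos : ∀ x : M, PosBisectionalAt E x)
    {ρ : ℝ → M → M} (hρ : H567.IsHolSemigroup E ρ)
    (hmeet : ∃ K : Set M, IsCompact K ∧ ∀ x, ∃ t : ℝ, 0 ≤ t ∧ ρ t x ∈ K) :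
    ∃ p, (∀ t, 0 ≤ t → ρ t p = p) ∧
      (∀ C : Set M, IsCompact C → ∀ W ∈ 𝓝 p, ∀ᶠ t : ℝ in atTop, ∀ x ∈ C, ρ t x ∈ W) ∧
      ∃ F : M ≃ₘ^1⟮𝓘(ℂ, E), 𝓘(ℂ, E)⟯ E, F p = 0 ∧
        ∀ v : E, (mfderiv 𝓘(ℂ, E) 𝓘(ℂ, E) F p : E → E) v = v := by
  have hP : ProperSpace M := properSpace_riemannian E M
  obtain ⟨p, h1, -, h3, h4⟩ := H502.main_semigroup (attracts_of_pos hK hpos)
    (H567.hasSExt_of_nonneg hK fun x => (hpos x).nonneg) hρ hmeet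
  exact ⟨p, h1, h3, h4⟩

/-- (4) -/
theorem main_field (hK : IsKahler E M) (hpos : ∀ x : M, PosBisectionalAt E x)
    {Z : (x : M) → TangentSpace 𝓘(ℂ, E) x} (hZ : IsHolField Z) (h : IsDissipativeField E Z) :
    ∃ (ψ : ℂ → M → M) (p : M), IsHolCFlow E ψ ∧ (∀ x ζ, IntAt Z (fun w => ψ w x) ζ) ∧
      (∀ t : ℝ, 0 ≤ t → ψ t p = p) ∧
      (∀ C : Set M, IsCompact C → ∀ W ∈ 𝓝 p, ∀ᶠ t : ℝ in atTop, ∀ x ∈ C, ψ t x ∈ W) ∧
      ∃ F : M ≃ₘ^1⟮𝓘(ℂ, E), 𝓘(ℂ, E)⟯ E, F p = 0 ∧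
        ∀ v : E, (mfderiv 𝓘(ℂ, E) 𝓘(ℂ, E) F p : E → E) v = v := by
  obtain ⟨ψ, hψ, hint, hmeet⟩ := dissipative_complete hK (fun x => (hpos x).nonneg) hZ h
  obtain ⟨p, h1, h2, h3⟩ := main_semi hK hpos (semigroup_of_cflow hψ) hmeet
  exact ⟨ψ, p, hψ, hint, h1, h2, h3⟩

/-- (5) -/
theorem main_tfae (hK : IsKahler E M) (hpos : ∀ x : M, PosBisectionalAt E x) :
    List.TFAE [Nonempty (M ≃ₘ^1⟮𝓘(ℂ, E), 𝓘(ℂ, E)⟯ E),
      ∃ f : M → M, MDifferentiable 𝓘(ℂ, E) 𝓘(ℂ, E) f ∧ Function.Bijective f ∧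
        ∃ K : Set M, IsCompact K ∧ ∀ x, ∃ k : ℕ, f^[k] x ∈ K,
      ∃ G : Set (M ≃ₘ^1⟮𝓘(ℂ, E), 𝓘(ℂ, E)⟯ M), (∀ g ∈ G, ∀ h ∈ G, ∀ x, g (h x) = h (g x)) ∧
        ∃ K : Set M, IsCompact K ∧ ∀ C : Set M, IsCompact C → ∃ g ∈ G, ∀ x ∈ C, g x ∈ K,
      ∃ ρ : ℝ → M → M, H567.IsHolSemigroup E ρ ∧
        ∃ K : Set M, IsCompact K ∧ ∀ x, ∃ t : ℝ, 0 ≤ t ∧ ρ t x ∈ K,
      ∃ Z : (x : M) → TangentSpace 𝓘(ℂ, E) x, IsHolField Z ∧ IsDissipativeField E Z] := by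
  have hnn : ∀ x : M, NonnegBisectionalAt E x := fun x => (hpos x).nonneg
  have hP : ProperSpace M := properSpace_riemannian E M
  tfae_have 1 → 2 := by
    rintro ⟨F⟩
    obtain ⟨f, K, hKc, hf⟩ := H661.exists_absorbing_auto F
    exact ⟨f, f.contMDiff.mdifferentiable (by simp), f.bijective, K, hKc, hf⟩
  tfae_have 2 → 1 := by
    rintro ⟨f, hf, hb, hmeet⟩
    obtain ⟨p, -, -, -, hF⟩ := main_map hK hpos hf hmeet
    obtain ⟨F, -⟩ := hF hb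
    exact ⟨F⟩
  tfae_have 1 → 3 := by
    rintro ⟨F⟩
    exact H89.exists_commuting F
  tfae_have 3 → 1 := by
    rintro ⟨G, hG, hfam⟩
    obtain ⟨p, -, F, -⟩ := H89.commuting_clause hK hnn hpos G hG hfam
    exact ⟨F⟩
  tfae_have 1 ↔ 4 :=
    H502.iff_semigroup (attracts_of_pos hK hpos) (H567.hasSExt_of_nonneg hK hnn)
  tfae_have 1 → 5 := by
    rintro ⟨F⟩
    exact exists_dissipative F
  tfae_have 5 → 1 := by
    rintro ⟨Z, hZ, hd⟩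
    obtain ⟨ψ, p, -, -, -, -, F, -⟩ := main_field hK hpos hZ hd
    exact ⟨F⟩
  tfae_finish

end Vale.Agent.P253.H22
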