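import Vale.Agent.P253.Mfd.Defs

/-!
P253: the covariant derivative of the field `V = -JX`, where `X` is the generator of a one-parameter
group of holomorphic isometries.
-/

open scoped Manifold ContDiff Topology Bundle
open Bundle Complex IsManifold

noncomputable section

namespace Vale.Agent.P253.Mfd

variable {E : Type*} [NormedAddCommGroup E] [NormedSpace ℂ E]
  {M : Type*} [MetricSpace M] [ChartedSpace E M]

/-- the vector field `V = -JX` in the chart `e`, at the point `z` of the chart; `X` is the generator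
of the one-parameter group `ρ` -/
def negJX (ρ : ℝ → M → M) (e : OpenPartialHomeomorph M E) (z : E) : E :=
  -(I • deriv (fun t : ℝ => e (ρ t (e.symm z))) 0)

variable [RiemannianBundle (fun x : M => TangentSpace 𝓘(ℝ, E) x)]

/-- the quadratic form `S(a) = g(∇_a V, a)` in the chart `e`, at the point `z` of the chart; `Γ` is
the Christoffel symbol at `z` -/
def SForm (ρ : ℝ → M → M) (e : OpenPartialHomeomorph M E) (z : E) (Γ : E → E → E) (a : E) : ℝ :=
  chartMetric e z (fderiv ℝ (negJX ρ e) z a + Γ a (negJX ρ e z)) a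

variable (E) in
/-- the form `S` is positive definite at `x` -/
def SPosAt (ρ : ℝ → M → M) (x : M) : Prop :=
  ∀ e ∈ maximalAtlas 𝓘(ℂ, E) 1 M, x ∈ e.source → ∀ Γ, IsChristoffel e (e x) Γ →
    ∀ a, a ≠ 0 → 0 < SForm ρ e (e x) Γ a

variable (E) in
/-- the form `S` is nonnegative at `x` -/
def SNonnegAt (ρ : ℝ → M → M) (x : M) : Prop :=
  ∀ e ∈ maximalAtlas 𝓘(ℂ, E) 1 M, x ∈ e.source → ∀ Γ, IsChristoffel e (e x) Γ →
    ∀ a, 0 ≤ SForm ρ e (e x) Γ a

end Vale.Agent.P253.Mfd
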