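import Vale.Agent.P253.H22.FDefs
import Vale.Agent.P253.H22.Asm

/-!
P253: one-parameter groups of holomorphic isometries whose form `S = g(∇V, ·)` is positive at one
point.
-/

open scoped Manifold ContDiff Topology Bundle
open Set Metric Complex Filter Bundle IsManifold Manifold Module
  Vale.Agent.P253.Mfd Vale.Agent.P253.H577 Vale.Agent.P253.H595 Vale.Agent.P253.H348

set_option maxSynthPendingDepth 3
set_option linter.unusedSectionVars false

noncomputable section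

namespace Vale.Agent.P253.H22

variable {E : Type*} [NormedAddCommGroup E] [NormedSpace ℂ E] [FiniteDimensional ℂ E]
  {M : Type*} [MetricSpace M] [ChartedSpace E M]
  [IsManifold 𝓘(ℂ, E) 1 M] [IsManifold 𝓘(ℝ, E) ∞ M]
  [RiemannianBundle (fun x : M => TangentSpace 𝓘(ℝ, E) x)]
  [IsContMDiffRiemannianBundle 𝓘(ℝ, E) ∞ E (fun x : M => TangentSpace 𝓘(ℝ, E) x)]
  {h : M → ℝ} {ρ : ℝ → M → M} {x₀ p : M} {lam : ℝ} {e : OpenPartialHomeomorph M E} {z : E}
  {Γ : E → E → E}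

theorem SForm_eq (he : e ∈ maximalAtlas 𝓘(ℂ, E) 1 M) (hz : z ∈ e.target)
    (hΓ : IsChristoffel e z Γ) (a : E) :
    SForm ρ e z Γ a = Sfun (chartG e) (vF ρ e) z a := by
  have her := mem_maximalAtlas_real he
  set v : E := vF ρ e z with hv
  have h1 := hΓ a v a
  have h2 : (fun y => chartMetric e y a v) = fun y => chartMetric e y v a := by
    funext y
    exact real_inner_comm _ _
  rw [h2, fderiv_chartMetric her hz, fderiv_chartMetric her hz] at h1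
  have h3 : SForm ρ e z Γ a = chartG e z (fderiv ℝ (vF ρ e) z a + Γ a v) a := by
    rw [chartG_apply]
    rfl
  rw [h3, map_add, add_apply, Sfun, chartG_apply e z (Γ a v) a]
  linarith

theorem sPosAt_iff (hK : IsKahler E M) [IsRiemannianManifold 𝓘(ℝ, E) M]
    (hρ : IsHolIsomFlow E ρ) {x : M} :
    SPosAt E ρ x ↔ ∃ c > 0, BotGE (E := E) ρ c x := by
  constructor
  · intro hp
    have he : chartAt E x ∈ maximalAtlas 𝓘(ℂ, E) 1 M := chart_mem_maximalAtlas x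
    have hx : x ∈ (chartAt E x).source := mem_chart_source E x
    have hz := (chartAt E x).map_source hx
    obtain ⟨Γ, hΓ⟩ := exists_christoffel hK he hz
    have hpos : ∀ a, a ≠ 0 → 0 < Sfun (chartG (chartAt E x)) (vF ρ (chartAt E x))
        (chartAt E x x) a := fun a ha => by
      rw [← SForm_eq he hz hΓ]
      exact hp _ he hx Γ hΓ a ha
    have hcont : Continuous (Sfun (chartG (chartAt E x)) (vF ρ (chartAt E x)) (chartAt E x x)) := by
      unfold Sfun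
      fun_prop
    obtain ⟨c, hc, hb⟩ := exists_const hcont (fun s a => by
      simp only [Sfun, map_smul, smul_apply, smul_eq_mul]
      ring) hpos (chartG (chartAt E x) (chartAt E x x))
    exact ⟨c, hc, botGE_of_chart hρ he hx hb⟩
  · rintro ⟨c, hc, hb⟩ e he hx Γ hΓ a ha
    rw [SForm_eq he (e.map_source hx) hΓ]
    have h2 := chartG_pos (mem_maximalAtlas_real he) (e.map_source hx) a ha
    exact (mul_pos hc h2).trans_le (hb e he hx a)

theorem sNonnegAt_iff (hK : IsKahler E M) [IsRiemannianManifold 𝓘(ℝ, E) M]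
    (hρ : IsHolIsomFlow E ρ) {x : M} :
    SNonnegAt E ρ x ↔ BotGE (E := E) ρ 0 x := by
  constructor
  · intro hp
    have he : chartAt E x ∈ maximalAtlas 𝓘(ℂ, E) 1 M := chart_mem_maximalAtlas x
    have hx : x ∈ (chartAt E x).source := mem_chart_source E x
    have hz := (chartAt E x).map_source hx
    obtain ⟨Γ, hΓ⟩ := exists_christoffel hK he hz
    refine botGE_of_chart hρ he hx fun a => ?_
    rw [zero_mul, ← SForm_eq he hz hΓ]
    exact hp _ he hx Γ hΓ a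
  · intro hb e he hx Γ hΓ a
    rw [SForm_eq he (e.map_source hx) hΓ]
    have h1 := hb e he hx a
    rwa [zero_mul] at h1

/-- one chart suffices -/
theorem sNonnegAt_of_chart (hK : IsKahler E M) [IsRiemannianManifold 𝓘(ℝ, E) M]
    (hρ : IsHolIsomFlow E ρ) {x : M} (he : e ∈ maximalAtlas 𝓘(ℂ, E) 1 M) (hx : x ∈ e.source)
    (hΓ : IsChristoffel e (e x) Γ) (h : ∀ a, 0 ≤ SForm ρ e (e x) Γ a) : SNonnegAt E ρ x := by
  rw [sNonnegAt_iff hK hρ]
  refine botGE_of_chart hρ he hx fun a => ?_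
  rw [zero_mul, ← SForm_eq he (e.map_source hx) hΓ]
  exact h a

theorem negJX_rev (e : OpenPartialHomeomorph M E) (z : E) :
    negJX (fun t => ρ (-t)) e z = -negJX ρ e z := vF_rev (ρ := ρ) e z

theorem SForm_rev (he : e ∈ maximalAtlas 𝓘(ℂ, E) 1 M) (hz : z ∈ e.target)
    (hΓ : IsChristoffel e z Γ) (a : E) :
    SForm (fun t => ρ (-t)) e z Γ a = -SForm ρ e z Γ a := by
  rw [SForm_eq he hz hΓ, SForm_eq he hz hΓ, Sfun_rev]

/-- the form of the flow of `J grad h` is the Hessian of `h` -/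
theorem SForm_eq_HessAt [IsRiemannianManifold 𝓘(ℝ, E) M] (hK : IsKahler E M)
    (hh : ContMDiff 𝓘(ℝ, E) 𝓘(ℝ, ℝ) ∞ h)
    (hρ : IsJGradFlow E h ρ) (he : e ∈ maximalAtlas 𝓘(ℂ, E) 1 M) (hz : z ∈ e.target)
    (hΓ : IsChristoffel e z Γ) (a : E) : SForm ρ e z Γ a = HessAt e z Γ h a := by
  rw [SForm_eq he hz hΓ, hρ.Sfun_eq hK hh he hz hΓ]

variable [IsRiemannianManifold 𝓘(ℝ, E) M] [CompleteSpace M] [NoncompactSpace M]
  [ConnectedSpace M]

/-- **one-parameter groups of holomorphic isometries** -/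
theorem main_isom (hK : IsKahler E M) (hcurv : ∀ x : M, NonnegBisectionalAt E x)
    (hρ : IsHolIsomFlow E ρ)
    (hcond : (∃ x, SPosAt E ρ x) ∨
      (∃ x, PosBisectionalAt E x ∧ (∃ t, ρ t x ≠ x) ∧ SNonnegAt E ρ x) ∨
      ((∀ x : M, PosBisectionalAt E x) ∧ ∃ h : M → ℝ, ContMDiff 𝓘(ℝ, E) 𝓘(ℝ, ℝ) ∞ h ∧
        IsJGradFlow E h ρ ∧ ∃ (N O : Set M) (c : ℝ), IsCompact N ∧ N.Nonempty ∧
        IsOpen O ∧ N ⊆ O ∧ (∀ x ∈ N, h x = c) ∧ ∀ x ∈ O \ N, c < h x)) :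
    ∃ (p : M) (b : Basis (Fin (finrank ℂ E)) ℂ E) (m : Fin (finrank ℂ E) → ℝ),
      SPosAt E ρ p ∧ HasWeights ρ p b m ∧
      (PosBisectionalAt E p ∨ (∀ x, SNonnegAt E ρ x) →
        (∀ x, (∀ t, ρ t x = x) ↔ x = p) ∧
        ∃ F : M ≃ₘ^1⟮𝓘(ℂ, E), 𝓘(ℂ, E)⟯ E, IsLinearization ρ p F) := by
  have key : ∀ (p : M) (b : Basis (Fin (finrank ℂ E)) ℂ E) (m : Fin (finrank ℂ E) → ℝ),
      HasWeights ρ p b m → ∃ (p : M) (b : Basis (Fin (finrank ℂ E)) ℂ E)
      (m : Fin (finrank ℂ E) → ℝ), SPosAt E ρ p ∧ HasWeights ρ p b m ∧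
      (PosBisectionalAt E p ∨ (∀ x, SNonnegAt E ρ x) →
        (∀ x, (∀ t, ρ t x = x) ↔ x = p) ∧
        ∃ F : M ≃ₘ^1⟮𝓘(ℂ, E), 𝓘(ℂ, E)⟯ E, IsLinearization ρ p F) := by
    intro p b m hw
    refine ⟨p, b, m, (sPosAt_iff hK hρ).2 (exists_botGE_of_hasWeights hK hρ hw), hw,
      fun hc => ?_⟩
    have hex : ∃ F : M ≃ₘ^1⟮𝓘(ℂ, E), 𝓘(ℂ, E)⟯ E, IsLinearization ρ p F := by
      rcases hc with hp | hN
      · obtain ⟨F, hF, -⟩ := Vale.Agent.P253.U165.main_weights hK hcurv hρ hp hw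
        exact ⟨F, hF⟩
      · refine Vale.Agent.P253.H502.main_nonneg hK hcurv hρ (fun e he z hz a => ?_) hw
        obtain ⟨Γ, hΓ⟩ := exists_christoffel hK he hz
        rw [← SForm_eq he hz hΓ]
        have h1 := hN (e.symm z) e he (e.map_target hz) Γ (by rwa [e.right_inv hz]) a
        rwa [e.right_inv hz] at h1
    obtain ⟨F, hF⟩ := hex
    refine ⟨fun x => ⟨fun h0 => fixed_unique hw hF h0, fun h0 => ?_⟩, F, hF⟩
    rw [h0]
    exact hw.1
  rcases hcond with ⟨x, hx⟩ | ⟨x, hx, hne, hxn⟩ | ⟨hpos, h, hh, hJ, N, O, c, hN, hNe, hO, hNO,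
      hc, hlt⟩
  · obtain ⟨c, hc, hb⟩ := (sPosAt_iff hK hρ).1 hx
    obtain ⟨p, b, m, hw, -, -⟩ := main_flow hK hcurv hρ hc hb
    exact key p b m hw
  · obtain ⟨x₁, c, hc, hb⟩ := exists_botGE_of_nonneg hK hρ hx hne ((sNonnegAt_iff hK hρ).1 hxn)
    obtain ⟨p, b, m, hw, -, -⟩ := main_flow hK hcurv hρ hc hb
    exact key p b m hw
  · obtain ⟨p, -, b, m, hw⟩ := exists_weights_of_min hK hcurv hpos hρ (isGradOf_flow hK hh hJ)
      hN hNe hO hNO hc hlt
    exact key p b m hw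

/-- **dichotomy** -/
theorem dichotomy_isom (hK : IsKahler E M) (hpos : ∀ x : M, PosBisectionalAt E x)
    (hM : ¬ Nonempty (M ≃ₘ^1⟮𝓘(ℂ, E), 𝓘(ℂ, E)⟯ E)) (hρ : IsHolIsomFlow E ρ) {x : M}
    (hx : ∃ t, ρ t x ≠ x) (he : e ∈ maximalAtlas 𝓘(ℂ, E) 1 M) (hxe : x ∈ e.source)
    (hΓ : IsChristoffel e (e x) Γ) :
    (∃ a, SForm ρ e (e x) Γ a < 0) ∧ ∃ a, 0 < SForm ρ e (e x) Γ a := by
  have hnn : ∀ x : M, NonnegBisectionalAt E x := fun x => (hpos x).nonneg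
  have key : ∀ {ρ : ℝ → M → M}, IsHolIsomFlow E ρ → (∃ t, ρ t x ≠ x) →
      (∀ a, 0 ≤ SForm ρ e (e x) Γ a) → False := by
    intro ρ hρ hx hc
    obtain ⟨p, b, m, -, -, hF⟩ := main_isom hK hnn hρ
      (Or.inr (Or.inl ⟨x, hpos x, hx, sNonnegAt_of_chart hK hρ he hxe hΓ hc⟩))
    obtain ⟨-, F, -⟩ := hF (Or.inl (hpos p))
    exact hM ⟨F⟩
  constructor
  · by_contra hcon
    push Not at hcon
    exact key hρ hx hcon
  · by_contra hcon
    push Not at hcon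
    refine key hρ.rev ?_ fun a => ?_
    · obtain ⟨t, ht⟩ := hx
      exact ⟨-t, by simpa using ht⟩
    · rw [SForm_rev he (e.map_source hxe) hΓ]
      linarith [hcon a]

end Vale.Agent.P253.H22
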