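import Vale.Agent.P253.H22.Fld

/-!
P253: the flow of a holomorphic Killing field of a complete Kähler manifold is a one-parameter group
of holomorphic isometries.
-/

open scoped Manifold ContDiff Topology Bundle
open Set Metric Complex Filter Bundle IsManifold Manifold Module
  Vale.Agent.P253.Mfd Vale.Agent.P253.H577 Vale.Agent.P253.H595

set_option maxSynthPendingDepth 3
set_option linter.unusedSectionVars false

noncomputable section

namespace Vale.Agent.P253.H22

variable {E : Type*} [NormedAddCommGroup E] [NormedSpace ℂ E] [FiniteDimensional ℂ E]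
  {M : Type*} [MetricSpace M] [ChartedSpace E M]
  [IsManifold 𝓘(ℂ, E) 1 M] [IsManifold 𝓘(ℝ, E) ∞ M]
  {e e' : OpenPartialHomeomorph M E} {Z : (x : M) → TangentSpace 𝓘(ℂ, E) x}

/-- the real-time flow of the field `Z` -/
def fl (Z : (x : M) → TangentSpace 𝓘(ℂ, E) x) (t : ℝ) (x : M) : M := FF (IntAt Z) (t : ℂ) x

/-- the real-time flow, if it exists for all times, is a smooth group of holomorphic maps -/
theorem fl_holFlow (hZ : IsHolField Z)
    (hD : ∀ (x : M) (t : ℝ), ((t : ℂ), x) ∈ DF (IntAt Z)) : R2.H156.IsHolFlow E (fl Z) where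
  zero x := by
    have hLF := locFlow_of_field hZ
    simp only [fl, ofReal_zero]
    exact FF_zero hLF x
  add s t x := by
    have hLF := locFlow_of_field hZ
    have h1 := (FF_add hLF (ζ := (t : ℂ)) (ζ' := (s : ℂ)) (x := x) fun r _ => by
      have h2 : (t : ℂ) + r * s = ((t + r * s : ℝ) : ℂ) := by push_cast; ring
      rw [h2]
      exact hD x _).2
    simp only [fl]
    rw [h1]
    congr 1
    push_cast
    ring
  holo t x := mdiff_slice (locFlow_of_field hZ) (hD x t)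
  smooth := by
    have hLF := locFlow_of_field hZ
    rintro ⟨t, x⟩
    set F : ℂ × M → M := fun q => FF (IntAt Z) q.1 q.2 with hF
    have hO : IsOpen (DF (IntAt Z)) := isOpen_DF hLF
    set O := DF (IntAt Z) with hOdef
    have hFd : ∀ p ∈ O, MDifferentiableAt (𝓘(ℂ, ℂ).prod 𝓘(ℂ, E)) 𝓘(ℂ, E) F p := fun p hp =>
      mdiff_FF hLF hp
    have hc : chartAt E x ∈ maximalAtlas 𝓘(ℂ, E) 1 M := chart_mem_maximalAtlas x
    have hc' : chartAt E (fl Z t x) ∈ maximalAtlas 𝓘(ℂ, E) 1 M := chart_mem_maximalAtlas _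
    set c := chartAt E x with hcdef
    set c' := chartAt E (fl Z t x) with hcdef'
    have hcr := mem_maximalAtlas_real hc
    have hcr' := mem_maximalAtlas_real hc'
    have hxc : x ∈ c.source := mem_chart_source E x
    have hxc' : fl Z t x ∈ c'.source := mem_chart_source E _
    have hFc : ContinuousOn F O := fun y hy => (hFd y hy).continuousAt.continuousWithinAt
    have hV : IsOpen (O ∩ F ⁻¹' c'.source) := hFc.isOpen_inter_preimage hO c'.open_source
    set V := O ∩ F ⁻¹' c'.source with hVdef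
    have hs : ContinuousOn (fun u : ℂ × E => (u.1, c.symm u.2)) {u | u.2 ∈ c.target} :=
      continuousOn_fst.prodMk (c.continuousOn_symm.comp continuousOn_snd fun u hu => hu)
    have hN : IsOpen ({u : ℂ × E | u.2 ∈ c.target} ∩ (fun u : ℂ × E => (u.1, c.symm u.2)) ⁻¹' V) :=
      hs.isOpen_inter_preimage (c.open_target.preimage continuous_snd) hV
    set N := {u : ℂ × E | u.2 ∈ c.target} ∩ (fun u : ℂ × E => (u.1, c.symm u.2)) ⁻¹' V with hNdef
    have hdiff : DifferentiableOn ℂ (fun u : ℂ × E => c' (F (u.1, c.symm u.2))) N := by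
      intro u hu
      have h1 : MDifferentiableAt 𝓘(ℂ, ℂ × E) (𝓘(ℂ, ℂ).prod 𝓘(ℂ, E))
          (fun u : ℂ × E => (u.1, c.symm u.2)) u := by
        refine MDifferentiableAt.prodMk differentiableAt_fst.mdifferentiableAt ?_
        exact MDifferentiableAt.comp u (g := c.symm) (f := Prod.snd)
          (mdiff_chart_symm hc hu.1) differentiableAt_snd.mdifferentiableAt
      have h2 : MDifferentiableAt (𝓘(ℂ, ℂ).prod 𝓘(ℂ, E)) 𝓘(ℂ, E) F (u.1, c.symm u.2) :=
        hFd _ hu.2.1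
      have h3 : MDifferentiableAt 𝓘(ℂ, E) 𝓘(ℂ, E) c' (F (u.1, c.symm u.2)) :=
        mdiff_chart hc' hu.2.2
      exact (MDifferentiableAt.comp u (g := c') (f := fun u : ℂ × E => F (u.1, c.symm u.2)) h3
        (MDifferentiableAt.comp u (g := F) (f := fun u : ℂ × E => (u.1, c.symm u.2)) h2
          h1)).differentiableAt.differentiableWithinAt
    have hsm := (contDiffOn_of_differentiableOn_complex hN hdiff).restrict_scalars ℝ
    have hqN : ((t : ℂ), c x) ∈ N := by
      refine ⟨c.map_source hxc, ?_⟩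
      simp only [mem_preimage, c.left_inv hxc]
      exact ⟨hD x t, hxc'⟩
    have h1 : ContMDiffAt 𝓘(ℝ, ℂ × E) 𝓘(ℝ, E) ∞ (fun u : ℂ × E => c' (F (u.1, c.symm u.2)))
        ((t : ℂ), c x) := (hsm.contDiffAt (hN.mem_nhds hqN)).contMDiffAt
    have h2 : ContMDiffAt (𝓘(ℝ, ℝ).prod 𝓘(ℝ, E)) 𝓘(ℝ, ℂ × E) ∞
        (fun p : ℝ × M => ((p.1 : ℂ), c p.2)) (t, x) := by
      refine ContMDiffAt.prodMk_space ?_ ?_
      · have h3 : ContMDiff 𝓘(ℝ, ℝ) 𝓘(ℝ, ℂ) ∞ (fun t : ℝ => (t : ℂ)) :=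
          ofRealCLM.contDiff.contMDiff
        exact ContMDiffAt.comp (t, x) (g := fun t : ℝ => (t : ℂ)) (f := Prod.fst)
          h3.contMDiffAt contMDiffAt_fst
      · exact ContMDiffAt.comp (t, x) (g := c) (f := Prod.snd)
          ((contMDiffOn_of_mem_maximalAtlas hcr).contMDiffAt (c.open_source.mem_nhds hxc))
          contMDiffAt_snd
    have h3 : ContMDiffAt 𝓘(ℝ, E) 𝓘(ℝ, E) ∞ c'.symm (c' (F ((t : ℂ), c.symm (c x)))) :=
      (contMDiffOn_symm_of_mem_maximalAtlas hcr').contMDiffAt (c'.open_target.mem_nhds (by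
        rw [c.left_inv hxc]; exact c'.map_source hxc'))
    have h4 := h3.comp (t, x) (h1.comp (t, x) h2)
    refine h4.congr_of_eventuallyEq ?_
    have hinc : ContinuousAt (fun p : ℝ × M => ((p.1 : ℂ), p.2)) (t, x) := by fun_prop
    have hev1 : ∀ᶠ p : ℝ × M in 𝓝 (t, x), ((p.1 : ℂ), p.2) ∈ V :=
      hinc.eventually (hV.mem_nhds ⟨hD x t, hxc'⟩)
    have hev2 : ∀ᶠ p : ℝ × M in 𝓝 (t, x), p.2 ∈ c.source :=
      continuousAt_snd.eventually (c.open_source.mem_nhds hxc)
    filter_upwards [hev1, hev2] with p hp hp2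
    simp only [Function.comp_apply, c.left_inv hp2]
    exact (c'.left_inv hp.2).symm

/-- the generator of the flow -/
theorem xF_fl (hZ : IsHolField Z) (he : e ∈ maximalAtlas 𝓘(ℂ, E) 1 M) {z : E}
    (hz : z ∈ e.target) : xF (fl Z) e z = comps (E := E) Z e (e.symm z) := by
  have hLF := locFlow_of_field hZ
  have h0 : FF (IntAt Z) (0 : ℂ) (e.symm z) = e.symm z := FF_zero hLF _
  have h1 := (FF_int hLF (zero_mem_DF hLF (e.symm z))).hasDerivAt he (by
    simp only [h0]
    exact e.map_target hz)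
  simp only [h0] at h1
  have h2 : HasDerivAt (fun t : ℝ => e (fl Z t (e.symm z))) (comps (E := E) Z e (e.symm z)) 0 := by
    have h3 : HasDerivAt (fun w : ℂ => e (FF (IntAt Z) w (e.symm z)))
      (comps (E := E) Z e (e.symm z)) ((0 : ℝ) : ℂ) := by rw [ofReal_zero]; exact h1
    have h4 : HasDerivAt (fun s : ℝ => (s : ℂ)) (1 : ℂ) (0:ℝ) := ofRealCLM.hasDerivAt
    have h5 := HasDerivAt.scomp (h := fun s : ℝ => (s : ℂ)) (0 : ℝ) h3 h4
    rw [one_smul] at h5
    exact h5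
  exact h2.deriv

variable [RiemannianBundle (fun x : M => TangentSpace 𝓘(ℝ, E) x)]
  [IsContMDiffRiemannianBundle 𝓘(ℝ, E) ∞ E (fun x : M => TangentSpace 𝓘(ℝ, E) x)]

section isom

variable {ρ : ℝ → M → M}

theorem mdiff_real (hρ : R2.H156.IsHolFlow E ρ) (s : ℝ) (x : M) :
    MDifferentiableAt 𝓘(ℝ, E) 𝓘(ℝ, E) (ρ s) x := by
  have h6 : ContMDiff 𝓘(ℝ, E) (𝓘(ℝ, ℝ).prod 𝓘(ℝ, E)) ∞ (fun x : M => (s, x)) :=
    contMDiff_const.prodMk contMDiff_id
  exact ((hρ.smooth.comp h6) x).mdifferentiableAt (by simp)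

/-- the derivative of a map of the flow, on the model space -/
def dR (ρ : ℝ → M → M) (s : ℝ) (x : M) : E →L[ℝ] E := mfderiv 𝓘(ℝ, E) 𝓘(ℝ, E) (ρ s) x

theorem dR_add (hρ : R2.H156.IsHolFlow E ρ) (s t : ℝ) (x : M) (v : E) :
    dR (E := E) ρ (s + t) x v = dR ρ s (ρ t x) (dR ρ t x v) := by
  have h1 : ρ (s + t) = ρ s ∘ ρ t := funext fun x => hρ.add s t x
  have h2 := mfderiv_comp x (mdiff_real hρ s (ρ t x)) (mdiff_real hρ t x)
  rw [← h1] at h2
  exact congrArg (fun T : E →L[ℝ] E => T v) h2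

/-- squared length of the image of a vector -/
def qn (ρ : ℝ → M → M) (t : ℝ) (x : M) (v : E) : ℝ :=
  innerAt (E := E) (ρ t x) (dR ρ t x v) (dR ρ t x v)

theorem chartG_HF_qn (hρ : R2.H156.IsHolFlow E ρ) (he : e ∈ maximalAtlas 𝓘(ℂ, E) 1 M)
    {s : ℝ} {z : E} (hz : (s, z) ∈ HΩ ρ e e) (v : E) :
    chartG e (HF ρ e e (s, z)) (fderiv ℝ (HF ρ e e) (s, z) (0, v))
      (fderiv ℝ (HF ρ e e) (s, z) (0, v)) = qn ρ s (e.symm z) (dsymm e z v) := by
  have her := mem_maximalAtlas_real he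
  have h1 : e.symm ∘ (fun w => HF ρ e e (s, w)) =ᶠ[𝓝 z] ρ s ∘ e.symm := by
    have hopen : {w : E | (s, w) ∈ HΩ ρ e e} ∈ 𝓝 z :=
      ((R2.H156.isOpen_HΩ hρ).preimage (Continuous.prodMk continuous_const continuous_id : Continuous (fun w : E => (s, w)))).mem_nhds hz
    filter_upwards [hopen] with w hw
    simp only [HF, Function.comp_apply]
    rw [e.left_inv hw.2]
  have hfd := R2.H156.hasFDerivAt_HF_right hρ he he hz
  have hd : DifferentiableAt ℝ (fun w => HF ρ e e (s, w)) z := hfd.differentiableAt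
  have h3 : MDifferentiableAt 𝓘(ℝ, E) 𝓘(ℝ, E) e.symm (HF ρ e e (s, z)) :=
    ((contMDiffOn_symm_of_mem_maximalAtlas her).contMDiffAt
      (e.open_target.mem_nhds (e.map_source hz.2))).mdifferentiableAt (by simp)
  have h4 : MDifferentiableAt 𝓘(ℝ, E) 𝓘(ℝ, E) e.symm z :=
    ((contMDiffOn_symm_of_mem_maximalAtlas her).contMDiffAt
      (e.open_target.mem_nhds hz.1)).mdifferentiableAt (by simp)
  have h6 := mfderiv_comp z h3 hd.mdifferentiableAt
  have h7 := mfderiv_comp z (mdiff_real hρ s (e.symm z)) h4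
  rw [h1.mfderiv_eq, h7, mfderiv_eq_fderiv] at h6
  have h8 : ∀ v : E, dsymm e (HF ρ e e (s, z)) (fderiv ℝ (fun w => HF ρ e e (s, w)) z v) =
      dR ρ s (e.symm z) (dsymm e z v) := by
    intro v
    exact (congrArg (fun T : E →L[ℝ] E => T v) h6).symm
  have h9 : fderiv ℝ (HF ρ e e) (s, z) (0, v) = fderiv ℝ (fun w => HF ρ e e (s, w)) z v := by
    rw [hfd.fderiv]
    rfl
  have hp : e.symm (HF ρ e e (s, z)) = ρ s (e.symm z) := by
    simp only [HF]; rw [e.left_inv hz.2]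
  rw [h9, chartG_eq_innerAt, h8, hp]
  rfl

theorem hasDerivAt_qn_zero (hρ : R2.H156.IsHolFlow E ρ)
    (hkill : ∀ e ∈ maximalAtlas 𝓘(ℂ, E) 1 M, ∀ z ∈ e.target, ∀ a : E,
      Sfun (chartG e) (xF ρ e) z a = 0) (x : M) (v : E) :
    HasDerivAt (fun t => qn ρ t x v) 0 0 := by
  have he : chartAt E x ∈ maximalAtlas 𝓘(ℂ, E) 1 M := chart_mem_maximalAtlas x
  have hx : x ∈ (chartAt E x).source := mem_chart_source E x
  have hds := dsymm_chartAt (E := E) x
  set e := chartAt E x with hedef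
  have her := mem_maximalAtlas_real he
  have hz : e x ∈ e.target := e.map_source hx
  have hq := R2.H156.mem_HΩ_zero hρ hz
  have hG : DifferentiableAt ℝ (chartG e) (e x) :=
    ((contDiffOn_chartG her).contDiffAt (e.open_target.mem_nhds hz)).differentiableAt (by simp)
  have h0 : HF ρ e e (0, e x) = e x := by simp [HF, hρ.zero, e.left_inv hx]
  have h1 := R2.H156.hasDerivAt_HF_left hρ he he hq
  rw [← R2.H156.xF_eq hρ he hz] at h1
  have hG' : HasFDerivAt (chartG e) (fderiv ℝ (chartG e) (e x)) (HF ρ e e (0, e x)) := by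
    rw [h0]; exact hG.hasFDerivAt
  have h2 : HasDerivAt (fun t => chartG e (HF ρ e e (t, e x)))
      (fderiv ℝ (chartG e) (e x) (xF ρ e (e x))) 0 :=
    HasFDerivAt.comp_hasDerivAt (f := fun s => HF ρ e e (s, e x)) (0:ℝ) hG' h1
  have h3 := R2.H156.hasDerivAt_fderiv_HF hρ he hz v
  have hid : fderiv ℝ (HF ρ e e) (0, e x) (0, v) = v := by
    have h4 := R2.H156.hasFDerivAt_HF_right hρ he he hq
    have h5 : (fun w => HF ρ e e (0, w)) =ᶠ[𝓝 (e x)] id := by
      filter_upwards [e.open_target.mem_nhds hz] with w hw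
      simp [HF, hρ.zero, e.right_inv hw]
    have h6 := (h4.congr_of_eventuallyEq h5.symm).unique (hasFDerivAt_id (e x))
    exact congrArg (fun T : E →L[ℝ] E => T v) h6
  have h4 := (h2.clm_apply h3).clm_apply h3
  rw [h0, hid] at h4
  have h5 : (fun t : ℝ => qn ρ t x v) =ᶠ[𝓝 0]
      (fun t : ℝ => chartG e (HF ρ e e (t, e x)) (fderiv ℝ (HF ρ e e) (t, e x) (0, v))
      (fderiv ℝ (HF ρ e e) (t, e x) (0, v))) := by
    have hopen : {t : ℝ | (t, e x) ∈ HΩ ρ e e} ∈ 𝓝 (0:ℝ) :=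
      ((R2.H156.isOpen_HΩ hρ).preimage (Continuous.prodMk continuous_id continuous_const : Continuous (fun t : ℝ => (t, e x)))).mem_nhds hq
    filter_upwards [hopen] with t ht
    rw [chartG_HF_qn hρ he ht v, hds, e.left_inv hx]
    rfl
  refine (h4.congr_of_eventuallyEq h5).congr_deriv ?_
  have h7 := hkill e he (e x) hz v
  rw [chartG_symm e (e x) v]
  simp only [Sfun, add_apply] at h7 ⊢
  linarith only [h7]

theorem hasDerivAt_qn (hρ : R2.H156.IsHolFlow E ρ)
    (hkill : ∀ e ∈ maximalAtlas 𝓘(ℂ, E) 1 M, ∀ z ∈ e.target, ∀ a : E,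
      Sfun (chartG e) (xF ρ e) z a = 0) (x : M) (v : E) (t : ℝ) :
    HasDerivAt (fun t => qn ρ t x v) 0 t := by
  have h1 := hasDerivAt_qn_zero hρ hkill (ρ t x) (dR ρ t x v)
  have h1' : HasDerivAt (fun s => qn ρ s (ρ t x) (dR ρ t x v)) 0 (t - t) := by rwa [sub_self]
  have h2 : HasDerivAt (fun s : ℝ => s - t) 1 t := (hasDerivAt_id t).sub_const t
  have h3 := HasDerivAt.scomp (h := fun s : ℝ => s - t) t h1' h2
  rw [smul_zero] at h3
  refine h3.congr_of_eventuallyEq (Eventually.of_forall fun s => ?_)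
  simp only [Function.comp_apply, qn]
  rw [← dR_add hρ, ← hρ.add, sub_add_cancel]

theorem qn_const (hρ : R2.H156.IsHolFlow E ρ)
    (hkill : ∀ e ∈ maximalAtlas 𝓘(ℂ, E) 1 M, ∀ z ∈ e.target, ∀ a : E,
      Sfun (chartG e) (xF ρ e) z a = 0) (x : M) (v : E) (t : ℝ) :
    qn ρ t x v = innerAt (E := E) x v v := by
  have h1 := is_const_of_deriv_eq_zero (f := fun t => qn ρ t x v)
    (fun t => (hasDerivAt_qn hρ hkill x v t).differentiableAt)
    (fun t => (hasDerivAt_qn hρ hkill x v t).deriv) t 0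
  rw [h1]
  have h2 : dR (E := E) ρ 0 x = ContinuousLinearMap.id ℝ E := by
    have h3 : ρ 0 = id := funext hρ.zero
    unfold dR
    rw [h3]
    exact mfderiv_id
  simp only [qn]
  rw [h2, hρ.zero]
  rfl

theorem isom_aux (hρ : R2.H156.IsHolFlow E ρ)
    (hkill : ∀ e ∈ maximalAtlas 𝓘(ℂ, E) 1 M, ∀ z ∈ e.target, ∀ a : E,
      Sfun (chartG e) (xF ρ e) z a = 0) (t : ℝ) (x : M) (v w : E) :
    innerAt (E := E) (ρ t x) (dR ρ t x v) (dR ρ t x w) = innerAt (E := E) x v w := by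
  have hq : ∀ v : E, innerAt (E := E) (ρ t x) (dR ρ t x v) (dR ρ t x v) = innerAt (E := E) x v v :=
    fun v => qn_const hρ hkill x v t
  have hadd : ∀ (y : M) (a b : E), innerAt (E := E) y (a + b) (a + b) =
      innerAt (E := E) y a a + 2 * innerAt (E := E) y a b + innerAt (E := E) y b b := by
    intro y a b
    have := real_inner_add_add_self (show TangentSpace 𝓘(ℝ, E) y from a)
      (show TangentSpace 𝓘(ℝ, E) y from b)
    exact this
  have h1 := hq (v + w)
  rw [map_add, hadd, hadd, hq, hq] at h1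
  linarith only [h1]

/-- the flow of a Killing field consists of isometries -/
theorem isIsomFlow (hρ : R2.H156.IsHolFlow E ρ)
    (hkill : ∀ e ∈ maximalAtlas 𝓘(ℂ, E) 1 M, ∀ z ∈ e.target, ∀ a : E,
      Sfun (chartG e) (xF ρ e) z a = 0) : IsHolIsomFlow E ρ where
  zero := hρ.zero
  add := hρ.add
  smooth := hρ.smooth
  holo := hρ.holo
  isom t x v w := isom_aux hρ hkill t x v w

end isom

variable [IsRiemannianManifold 𝓘(ℝ, E) M]

/-- **the flow of a holomorphic Killing field** of a complete Kähler manifold -/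
theorem fl_isom (hK : IsKahler E M) [CompleteSpace M] (hZ : IsHolField Z)
    (hkill : IsKillingField Z) :
    IsHolIsomFlow E (fl Z) ∧ ∀ e ∈ maximalAtlas 𝓘(ℂ, E) 1 M, ∀ z ∈ e.target,
      xF (fl Z) e z = comps (E := E) Z e (e.symm z) := by
  have hP : ProperSpace M := properSpace_riemannian E M
  have h1 := fl_holFlow hZ fun x t => mem_DF_real hK hZ hkill x t
  have hx : ∀ e ∈ maximalAtlas 𝓘(ℂ, E) 1 M, ∀ z ∈ e.target,
      xF (fl Z) e z = comps (E := E) Z e (e.symm z) := fun e he z hz => xF_fl hZ he hz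
  refine ⟨isIsomFlow h1 fun e he z hz a => ?_, hx⟩
  rw [← hkill e he z hz a]
  have hev : xF (fl Z) e =ᶠ[𝓝 z] fun y : E => comps (E := E) Z e (e.symm y) := by
    filter_upwards [e.open_target.mem_nhds hz] with y hy using hx e he y hy
  simp only [Sfun]
  rw [hev.fderiv_eq, hx e he z hz]

end Vale.Agent.P253.H22
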