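import Vale.Agent.P253.MathlibUsed
import Mathlib.Combinatorics.Hindman

/-!
P253: iterates of an asymptotically nonexpansive self-map of a proper metric space: convergence to a
distance-nonincreasing retraction along an idempotent ultrafilter.
-/

open scoped Topology
open Set Metric Filter

noncomputable section

namespace Vale.Agent.P253.H22

attribute [local instance] Ultrafilter.add Ultrafilter.addSemigroup

/-- an idempotent nonprincipal ultrafilter on the natural numbers -/
theorem exists_idem_ultra : ∃ u : Ultrafilter ℕ, (u : Filter ℕ) ≤ atTop ∧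
    ∀ p : ℕ → Prop, (∀ᶠ m in (u : Filter ℕ), p m) →
      ∀ᶠ m in (u : Filter ℕ), ∀ᶠ n in (u : Filter ℕ), p (m + n) := by
  obtain ⟨U, hU⟩ := exists_idempotent_of_compact_t2_of_continuous_add_left
    (M := Ultrafilter ℕ+) Ultrafilter.continuous_add_left
  have hp : ∀ p : ℕ+ → Prop, (∀ᶠ m in (U : Filter ℕ+), p m) →
      ∀ᶠ m in (U : Filter ℕ+), ∀ᶠ n in (U : Filter ℕ+), p (m + n) := by
    intro p h
    rw [← hU, Ultrafilter.eventually_add] at h
    exact h
  refine ⟨U.map (fun n : ℕ+ => (n : ℕ)), ?_, ?_⟩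
  · have h1 : (U : Filter ℕ+) ≤ cofinite := by
      rcases Ultrafilter.le_cofinite_or_eq_pure U with h | ⟨n, hn⟩
      · exact h
      · exfalso
        have h2 := hp (fun m => m = n) (by rw [hn]; simp)
        rw [hn] at h2
        simp only [Ultrafilter.coe_pure, eventually_pure] at h2
        have h3 : (n : ℕ) + n = n := by exact_mod_cast congrArg (fun m : ℕ+ => (m : ℕ)) h2
        have h4 := n.pos
        omega
    rw [Ultrafilter.coe_map, ← Nat.cofinite_eq_atTop]
    exact (map_mono h1).trans (PNat.coe_injective.tendsto_cofinite)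
  · intro p h
    rw [Ultrafilter.coe_map, eventually_map] at h ⊢
    filter_upwards [hp _ h] with m hm
    rw [eventually_map]
    exact hm

variable {M : Type*} [MetricSpace M]

/-- the map `f` is asymptotically nonexpansive on compact sets: for large `k` the restriction of the
`k`-th iterate to a compact set does almost not increase distances -/
def AsympNonexp (f : M → M) : Prop :=
  ∀ C : Set M, IsCompact C → ∀ ε > 0, ∀ᶠ k : ℕ in atTop, ∀ x ∈ C, ∀ y ∈ C,
    dist (f^[k] x) (f^[k] y) ≤ (1 + ε) * dist x y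

theorem asympNonexp_of_lip {f : M → M} (h : ∀ x y, dist (f x) (f y) ≤ dist x y) :
    AsympNonexp f := by
  intro C _ ε hε
  refine Eventually.of_forall fun k x _ y _ => ?_
  have h1 : ∀ k : ℕ, dist (f^[k] x) (f^[k] y) ≤ dist x y := by
    intro k
    induction k with
    | zero => exact le_rfl
    | succ k ih =>
      rw [Function.iterate_succ_apply', Function.iterate_succ_apply']
      exact (h _ _).trans ih
  refine (h1 k).trans ?_
  have := dist_nonneg (x := x) (y := y)
  nlinarith

theorem AsympNonexp.pair {f : M → M} (h : AsympNonexp f) (x y : M) {ε : ℝ} (hε : 0 < ε) :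
    ∀ᶠ k : ℕ in atTop, dist (f^[k] x) (f^[k] y) ≤ (1 + ε) * dist x y := by
  filter_upwards [h {x, y} (by simp) ε hε] with k hk
  exact hk x (by simp) y (by simp)

theorem le_of_forall_mul {a b : ℝ} (h : ∀ ε > 0, a ≤ (1 + ε) * b) : a ≤ b := by
  by_contra hab
  push Not at hab
  rcases le_or_gt b 0 with hb | hb
  · have := h 1 one_pos
    linarith
  · have h1 := h ((a - b) / (2 * b)) (by have : 0 < a - b := by linarith
                                         positivity)
    have h2 : (1 + (a - b) / (2 * b)) * b = b + (a - b) / 2 := by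
      field_simp
    rw [h2] at h1
    linarith

/-- **the limit retraction** -/
theorem exists_retraction [ProperSpace M] {f : M → M} (hfc : Continuous f) (hA : AsympNonexp f)
    (hb : ∃ x, Bornology.IsBounded (range fun k : ℕ => f^[k] x)) :
    ∃ (u : Ultrafilter ℕ) (e : M → M), (u : Filter ℕ) ≤ atTop ∧
      (∀ x, Tendsto (fun k => f^[k] x) u (𝓝 (e x))) ∧
      (∀ x, e (e x) = e x) ∧ (∀ x y, dist (e x) (e y) ≤ dist x y) ∧
      (∀ x, ∀ ε > 0, ∃ U ∈ 𝓝 x, ∀ᶠ k in (u : Filter ℕ), ∀ y ∈ U, dist (f^[k] y) (e y) < ε) := by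
  obtain ⟨u, hu, hidem⟩ := exists_idem_ultra
  obtain ⟨x₀, hx₀⟩ := hb
  obtain ⟨B, hB⟩ := hx₀.subset_closedBall x₀
  have hlim : ∀ x, ∃ y, Tendsto (fun k => f^[k] x) u (𝓝 y) := by
    intro x
    have h1 : ∀ᶠ k in (u : Filter ℕ), f^[k] x ∈ closedBall x₀ (2 * dist x x₀ + B) := by
      filter_upwards [hu (hA.pair x x₀ one_pos)] with k hk
      have h2 : f^[k] x₀ ∈ closedBall x₀ B := hB ⟨k, rfl⟩
      rw [mem_closedBall] at h2 ⊢
      have h3 := dist_triangle (f^[k] x) (f^[k] x₀) x₀
      linarith
    obtain ⟨y, -, hy⟩ := (isCompact_closedBall x₀ (2 * dist x x₀ + B)).ultrafilter_le_nhds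
      (u.map (fun k => f^[k] x)) (by rw [le_principal_iff]; exact mem_map.2 h1)
    exact ⟨y, hy⟩
  choose e he using hlim
  have hfn : ∀ n, Continuous (f^[n]) := fun n => hfc.iterate n
  have hlip : ∀ x y, dist (e x) (e y) ≤ dist x y := by
    intro x y
    refine le_of_forall_mul fun ε hε => ?_
    exact le_of_tendsto ((he x).dist (he y)) (hu (hA.pair x y hε))
  refine ⟨u, e, hu, he, fun x => ?_, hlip, fun x ε hε => ?_⟩
  · refine dist_le_zero.1 (le_of_forall_pos_le_add fun ε hε => ?_)
    rw [zero_add]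
    have h1 : ∀ᶠ k in (u : Filter ℕ), dist (f^[k] x) (e x) ≤ ε := by
      filter_upwards [Metric.tendsto_nhds.1 (he x) ε hε] with k hk using hk.le
    refine le_of_tendsto ((he (e x)).dist tendsto_const_nhds) ?_
    filter_upwards [hidem _ h1] with m hm
    have h2 : Tendsto (fun n => dist (f^[m] (f^[n] x)) (e x)) u (𝓝 (dist (f^[m] (e x)) (e x))) :=
      (((hfn m).tendsto (e x)).comp (he x)).dist tendsto_const_nhds
    refine le_of_tendsto h2 ?_
    filter_upwards [hm] with n hn
    rwa [← Function.iterate_add_apply]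
  · refine ⟨ball x (min 1 (ε / 6)), ball_mem_nhds x (by positivity), ?_⟩
    filter_upwards [hu (hA (closedBall x 1) (isCompact_closedBall x 1) 1 one_pos),
      Metric.tendsto_nhds.1 (he x) (ε / 3) (by positivity)] with k h1 h2 y hy
    rw [mem_ball] at hy
    have hy1 : dist y x < 1 := hy.trans_le (min_le_left _ _)
    have hy2 : dist y x < ε / 6 := hy.trans_le (min_le_right _ _)
    have h3 := h1 y hy1.le x (mem_closedBall_self zero_le_one)
    have h4 := hlip x y
    rw [dist_comm x y] at h4
    have h5 := dist_triangle4 (f^[k] y) (f^[k] x) (e x) (e y)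
    linarith

/-- if the limit retraction is the identity, `f` is an isometry -/
theorem isometry_of_limit_id {f : M → M} (hA : AsympNonexp f) {u : Ultrafilter ℕ}
    (hu : (u : Filter ℕ) ≤ atTop) (he : ∀ x, Tendsto (fun k => f^[k] x) u (𝓝 x)) : Isometry f := by
  rw [isometry_iff_dist_eq]
  intro x y
  refine le_antisymm ?_ ?_
  · refine le_of_forall_mul fun ε hε => ?_
    refine le_of_tendsto ((he (f x)).dist (he (f y))) (hu ?_)
    have h1 := (tendsto_add_atTop_nat 1).eventually (hA.pair x y hε)
    filter_upwards [h1] with k hk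
    rwa [Function.iterate_add_apply, Function.iterate_add_apply] at hk
  · refine le_of_forall_mul fun ε hε => ?_
    refine le_of_tendsto ((he x).dist (he y)) (hu ?_)
    have h1 := hA.pair (f x) (f y) hε
    obtain ⟨N, hN⟩ := eventually_atTop.1 h1
    refine eventually_atTop.2 ⟨N + 1, fun k hk => ?_⟩
    obtain ⟨j, rfl⟩ : ∃ j, k = j + 1 := ⟨k - 1, by omega⟩
    have h2 := hN j (by omega)
    rwa [← Function.iterate_succ_apply, ← Function.iterate_succ_apply] at h2

/-- if the limit retraction is constant, a compact set meets all orbits -/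
theorem meet_of_limit_const [ProperSpace M] {f : M → M} {u : Ultrafilter ℕ} {p : M}
    (he : ∀ x, Tendsto (fun k => f^[k] x) u (𝓝 p)) :
    ∃ K : Set M, IsCompact K ∧ ∀ x, ∃ k : ℕ, f^[k] x ∈ K := by
  refine ⟨closedBall p 1, isCompact_closedBall p 1, fun x => ?_⟩
  obtain ⟨k, hk⟩ := (Metric.tendsto_nhds.1 (he x) 1 one_pos).exists
  exact ⟨k, hk.le⟩

end Vale.Agent.P253.H22
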