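import Vale.Agent.P253.H22.NR
import Vale.Agent.P253.H51.Diag2
import Vale.Agent.P253.H805.IsoM

/-!
P253: commuting isometries without invariant polynomials.
-/

open scoped Manifold ContDiff Topology Bundle
open Set Metric Complex Filter Bundle IsManifold Manifold Module
  Vale.Agent.P253.Mfd Vale.Agent.P253.CStar Vale.Agent.P253.R2 Vale.Agent.P253.H595
  Vale.Agent.P253.H89 Vale.Agent.P253.H348

set_option maxSynthPendingDepth 3
set_option linter.unusedSectionVars false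

noncomputable section

namespace Vale.Agent.P253.H22

variable {E : Type*} [NormedAddCommGroup E] [NormedSpace ℂ E] [FiniteDimensional ℂ E]
  {M : Type*} [MetricSpace M] [ChartedSpace E M]
  [IsManifold 𝓘(ℂ, E) 1 M] [IsManifold 𝓘(ℝ, E) ∞ M]
  [RiemannianBundle (fun x : M => TangentSpace 𝓘(ℝ, E) x)]
  [IsContMDiffRiemannianBundle 𝓘(ℝ, E) ∞ E (fun x : M => TangentSpace 𝓘(ℝ, E) x)]
  [IsRiemannianManifold 𝓘(ℝ, E) M] [CompleteSpace M] [NoncompactSpace M] [ConnectedSpace M]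

omit [FiniteDimensional ℂ E] in
theorem exists_monomial_ne {n : ℕ} (b : Module.Basis (Fin n) ℂ E) {ι : Type*} {T : ι → E →ₗ[ℂ] E}
    {S : Set ι} {lam : ι → Fin n → ℂ} (hlam : ∀ i ∈ S, ∀ j, T i (b j) = lam i j • b j)
    (hinv : ∀ (k : ℕ) (q : MultilinearMap ℂ (fun _ : Fin k => E) ℂ), 0 < k →
      (∀ i ∈ S, ∀ v, q (fun _ => T i v) = q (fun _ => v)) → ∀ v, q (fun _ => v) = 0)
    {a : Fin n → ℕ} (ha : a ≠ 0) : ∃ i ∈ S, ∏ j, lam i j ^ a j ≠ 1 := by
  by_contra hcon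
  push Not at hcon
  set σ : Type := (j : Fin n) × Fin (a j) with hσ
  obtain ⟨k, ⟨e⟩⟩ : ∃ k, Nonempty (Fin k ≃ σ) := ⟨_, ⟨(Fintype.equivFin σ).symm⟩⟩
  have hk : 0 < k := by
    obtain ⟨j, hj⟩ := Function.ne_iff.1 ha
    have h1 : 0 < a j := Nat.pos_of_ne_zero hj
    have h2 : Nonempty σ := ⟨⟨j, ⟨0, h1⟩⟩⟩
    have h3 : Nonempty (Fin k) := e.nonempty
    exact Fin.pos_iff_nonempty.2 h3
  set q : MultilinearMap ℂ (fun _ : Fin k => E) ℂ :=
    (MultilinearMap.mkPiAlgebra ℂ (Fin k) ℂ).compLinearMap (fun s => b.coord (e s).1) with hq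
  have hqv : ∀ w : E, q (fun _ => w) = ∏ j, b.coord j w ^ a j := by
    intro w
    rw [hq, MultilinearMap.compLinearMap_apply, MultilinearMap.mkPiAlgebra_apply,
      e.prod_comp (fun s : σ => b.coord s.1 w), Fintype.prod_sigma]
    simp
  have hT : ∀ i ∈ S, ∀ w, q (fun _ => T i w) = q (fun _ => w) := by
    intro i hi w
    have h1 : ∀ j, b.coord j (T i w) = lam i j * b.coord j w := by
      intro j
      have h2 : b.coord j ∘ₗ T i = lam i j • b.coord j := by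
        refine b.ext fun l => ?_
        rw [LinearMap.comp_apply, hlam i hi l, map_smul, LinearMap.smul_apply]
        rcases eq_or_ne l j with rfl | hlj
        · rfl
        · simp [Basis.coord_apply, Finsupp.single_eq_of_ne, hlj.symm]
      exact LinearMap.congr_fun h2 w
    rw [hqv, hqv]
    simp only [h1, mul_pow, Finset.prod_mul_distrib, hcon i hi, one_mul]
  have h0 := hinv k q hk hT (∑ j, b j)
  rw [hqv] at h0
  have h1 : ∀ j, b.coord j (∑ l, b l) = 1 := by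
    intro j
    rw [map_sum, Finset.sum_eq_single j]
    · simp
    · intro l _ hl
      simp [Basis.coord_apply, Finsupp.single_eq_of_ne, hl.symm]
    · simp
  simp [h1] at h0

/-- commuting holomorphic isometries with a common fixed point and without invariant polynomials -/
theorem main_isopoly (hK : IsKahler E M) (hpos : ∀ x : M, PosBisectionalAt E x)
    {p : M} {S : Set (M → M)}
    (hS : ∀ f ∈ S, MDifferentiable 𝓘(ℂ, E) 𝓘(ℂ, E) f ∧ Isometry f ∧ f p = p)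
    (hcomm : ∀ f ∈ S, ∀ g ∈ S, ∀ x, f (g x) = g (f x))
    (hinv : ∀ (k : ℕ) (q : MultilinearMap ℂ (fun _ : Fin k => E) ℂ), 0 < k →
      (∀ f ∈ S, ∀ v : E, q (fun _ => (mfderiv 𝓘(ℂ, E) 𝓘(ℂ, E) f p : E → E) v) =
        q (fun _ => v)) → ∀ v, q (fun _ => v) = 0) :
    ∃ F : M ≃ₘ^1⟮𝓘(ℂ, E), 𝓘(ℂ, E)⟯ E, F p = 0 ∧
      ∀ v : E, (mfderiv 𝓘(ℂ, E) 𝓘(ℂ, E) F p : E → E) v = v := by
  have hP : ProperSpace M := properSpace_riemannian E M
  obtain ⟨b, lam, hlam⟩ := H51.exists_common_eigenbasis hK hS hcomm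
  refine H805.main_isoset hK (fun x => (hpos x).nonneg) (hpos p) hS hlam fun a ha => ?_
  let D : (M → M) → (E →L[ℂ] E) := fun f => mfderiv 𝓘(ℂ, E) 𝓘(ℂ, E) f p
  exact exists_monomial_ne b (T := fun f : M → M => (D f).toLinearMap) hlam hinv ha

/-- (3) -/
theorem main_fix (hK : IsKahler E M) (hpos : ∀ x : M, PosBisectionalAt E x)
    {p : M} {S : Set (M → M)}
    (hS : ∀ f ∈ S, MDifferentiable 𝓘(ℂ, E) 𝓘(ℂ, E) f ∧ Function.Bijective f ∧ AsympNonexp f ∧
      f p = p)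
    (hcomm : ∀ f ∈ S, ∀ g ∈ S, ∀ x, f (g x) = g (f x))
    (hinv : ∀ (k : ℕ) (q : MultilinearMap ℂ (fun _ : Fin k => E) ℂ), 0 < k →
      (∀ f ∈ S, ∀ v : E, q (fun _ => (mfderiv 𝓘(ℂ, E) 𝓘(ℂ, E) f p : E → E) v) =
        q (fun _ => v)) → ∀ v, q (fun _ => v) = 0) :
    ∃ F : M ≃ₘ^1⟮𝓘(ℂ, E), 𝓘(ℂ, E)⟯ E, F p = 0 ∧
      ∀ v : E, (mfderiv 𝓘(ℂ, E) 𝓘(ℂ, E) F p : E → E) v = v := by
  by_cases h : ∀ f ∈ S, Isometry f
  · exact main_isopoly hK hpos (fun f hf => ⟨(hS f hf).1, h f hf, (hS f hf).2.2.2⟩) hcomm hinv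
  · push Not at h
    obtain ⟨f, hf, hiso⟩ := h
    obtain ⟨hd, hbij, hA, hp⟩ := hS f hf
    have hit : ∀ k : ℕ, f^[k] p = p := fun k => Function.iterate_fixed hp k
    rcases main_tri hK hpos hd hA with h1 | h1 | ⟨q, hq, hc, -, hF⟩
    · have h2 := h1 p
      simp only [hit] at h2
      exact absurd h2 not_tendsto_cocompact_const
    · exact absurd h1 hiso
    · have hqp : q = p := by
        by_contra hne
        obtain ⟨k, hk⟩ := (hc {p} isCompact_singleton {p}ᶜ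
          (isOpen_compl_singleton.mem_nhds hne)).exists
        exact hk p rfl (hit k)
      subst hqp
      exact hF hbij

end Vale.Agent.P253.H22
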