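import Vale.Agent.P253.H22.FMain
import Vale.Agent.P253.H22.NS

/-!
P253: commuting isometries without invariant polynomials, nonnegative bisectional curvature.
-/

open scoped Manifold ContDiff Topology Bundle
open Set Metric Complex Filter Bundle IsManifold Manifold Module
  Vale.Agent.P253.Mfd Vale.Agent.P253.CStar Vale.Agent.P253.R2 Vale.Agent.P253.H595

set_option maxSynthPendingDepth 3
set_option linter.unusedSectionVars false

noncomputable section

namespace Vale.Agent.P253.H22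

variable {E : Type*} [NormedAddCommGroup E] [NormedSpace ℂ E] [FiniteDimensional ℂ E]
  {M : Type*} [MetricSpace M] [ChartedSpace E M]
  [IsManifold 𝓘(ℂ, E) 1 M] [IsManifold 𝓘(ℝ, E) ∞ M]
  [RiemannianBundle (fun x : M => TangentSpace 𝓘(ℝ, E) x)]
  [IsContMDiffRiemannianBundle 𝓘(ℝ, E) ∞ E (fun x : M => TangentSpace 𝓘(ℝ, E) x)]
  [IsRiemannianManifold 𝓘(ℝ, E) M] [CompleteSpace M] [NoncompactSpace M] [ConnectedSpace M]

/-- commuting holomorphic isometries with a common fixed point `p` and without invariant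
polynomials on `T_p M`; the curvature is nonnegative, and positive at `p` -/
theorem main_isopoly_nn (hK : IsKahler E M) (hnn : ∀ x : M, NonnegBisectionalAt E x)
    {p : M} (hpos : PosBisectionalAt E p) {S : Set (M → M)}
    (hS : ∀ f ∈ S, MDifferentiable 𝓘(ℂ, E) 𝓘(ℂ, E) f ∧ Isometry f ∧ f p = p)
    (hcomm : ∀ f ∈ S, ∀ g ∈ S, ∀ x, f (g x) = g (f x))
    (hinv : ∀ (k : ℕ) (q : MultilinearMap ℂ (fun _ : Fin k => E) ℂ), 0 < k →
      (∀ f ∈ S, ∀ v : E, q (fun _ => (mfderiv 𝓘(ℂ, E) 𝓘(ℂ, E) f p : E → E) v) =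
        q (fun _ => v)) → ∀ v, q (fun _ => v) = 0) :
    ∃ F : M ≃ₘ^1⟮𝓘(ℂ, E), 𝓘(ℂ, E)⟯ E, F p = 0 ∧
      ∀ v : E, (mfderiv 𝓘(ℂ, E) 𝓘(ℂ, E) F p : E → E) v = v := by
  have hP : ProperSpace M := properSpace_riemannian E M
  obtain ⟨b, lam, hlam⟩ := H51.exists_common_eigenbasis hK hS hcomm
  refine H805.main_isoset hK hnn hpos hS hlam fun a ha => ?_
  let D : (M → M) → (E →L[ℂ] E) := fun f => mfderiv 𝓘(ℂ, E) 𝓘(ℂ, E) f p
  exact exists_monomial_ne b (T := fun f : M → M => (D f).toLinearMap) hlam hinv ha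

end Vale.Agent.P253.H22
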