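import Vale.Agent.P253.H89.ZSol

/-!
P253: the Lie derivative of the metric along a holomorphic vector field.
-/

open scoped Manifold ContDiff Topology Bundle
open Bundle Complex IsManifold Module Vale.Agent.P253.Mfd Vale.Agent.P253.H348
  Vale.Agent.P253.H595 Vale.Agent.P253.H89

noncomputable section

namespace Vale.Agent.P253.H22

variable {E : Type*} [NormedAddCommGroup E] [NormedSpace ℂ E]
  {M : Type*} [MetricSpace M] [ChartedSpace E M]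
  [RiemannianBundle (fun x : M => TangentSpace 𝓘(ℝ, E) x)]

/-- `L_Z g ≥ 0` -/
def LieNonneg (Z : (x : M) → TangentSpace 𝓘(ℂ, E) x) : Prop :=
  ∀ e ∈ maximalAtlas 𝓘(ℂ, E) 1 M, ∀ z ∈ e.target, ∀ Γ, IsChristoffel e z Γ →
    ∀ a, 0 ≤ HalfLie e z Γ Z a

/-- `L_Z g` is positive on some tangent vector -/
def LiePosSomewhere (Z : (x : M) → TangentSpace 𝓘(ℂ, E) x) : Prop :=
  ∃ e ∈ maximalAtlas 𝓘(ℂ, E) 1 M, ∃ z ∈ e.target, ∃ Γ, IsChristoffel e z Γ ∧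
    ∃ a, 0 < HalfLie e z Γ Z a

/-- `L_Z g ≥ 2 c g` -/
def LieGe (Z : (x : M) → TangentSpace 𝓘(ℂ, E) x) (c : ℝ) : Prop :=
  ∀ e ∈ maximalAtlas 𝓘(ℂ, E) 1 M, ∀ z ∈ e.target, ∀ Γ, IsChristoffel e z Γ →
    ∀ a, c * chartMetric e z a a ≤ HalfLie e z Γ Z a

end Vale.Agent.P253.H22
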