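import Vale.Agent.P253.H22.NDefs
import Vale.Agent.P253.H22.FMain

/-!
P253: the Lie derivative of the metric along a holomorphic vector field, in a chart.
-/

open scoped Manifold ContDiff Topology Bundle
open Set Metric Complex Filter Bundle IsManifold Manifold Module Vale.Agent.P253.Mfd
  Vale.Agent.P253.H348 Vale.Agent.P253.H595 Vale.Agent.P253.H89

set_option maxSynthPendingDepth 3
set_option linter.unusedSectionVars false

noncomputable section

namespace Vale.Agent.P253.H22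

variable {E : Type*} [NormedAddCommGroup E] [NormedSpace ℂ E] [FiniteDimensional ℂ E]
  {M : Type*} [MetricSpace M] [ChartedSpace E M]
  [IsManifold 𝓘(ℂ, E) 1 M] [IsManifold 𝓘(ℝ, E) ∞ M]
  [RiemannianBundle (fun x : M => TangentSpace 𝓘(ℝ, E) x)]
  [IsContMDiffRiemannianBundle 𝓘(ℝ, E) ∞ E (fun x : M => TangentSpace 𝓘(ℝ, E) x)]
  {Z : (x : M) → TangentSpace 𝓘(ℂ, E) x}

theorem sfun_nonneg_of_lieNonneg (hK : IsKahler E M) (h : LieNonneg Z) :
    ∀ e ∈ maximalAtlas 𝓘(ℂ, E) 1 M, ∀ z ∈ e.target, ∀ a,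
      0 ≤ Sfun (chartG e) (fun y : E => comps Z e (e.symm y)) z a := by
  intro e he z hz a
  obtain ⟨Γ, hΓ⟩ := exists_christoffel hK he hz
  rw [Sfun_comps hK he hz hΓ]
  exact h e he z hz Γ hΓ a

theorem sfun_ge_of_lieGe (hK : IsKahler E M) {c : ℝ} (h : LieGe Z c) :
    ∀ e ∈ maximalAtlas 𝓘(ℂ, E) 1 M, ∀ z ∈ e.target, ∀ a,
      c * chartG e z a a ≤ Sfun (chartG e) (fun y : E => comps Z e (e.symm y)) z a := by
  intro e he z hz a
  obtain ⟨Γ, hΓ⟩ := exists_christoffel hK he hz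
  rw [Sfun_comps hK he hz hΓ, chartG_apply]
  exact h e he z hz Γ hΓ a

theorem sfun_pos_of_liePos (hK : IsKahler E M) (h : LiePosSomewhere Z) :
    ∃ e ∈ maximalAtlas 𝓘(ℂ, E) 1 M, ∃ z ∈ e.target, ∃ a,
      0 < Sfun (chartG e) (fun y : E => comps Z e (e.symm y)) z a := by
  obtain ⟨e, he, z, hz, Γ, hΓ, a, ha⟩ := h
  exact ⟨e, he, z, hz, a, by rwa [Sfun_comps hK he hz hΓ]⟩

end Vale.Agent.P253.H22
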