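import Vale.Agent.P253.H22.NS

/-!
P253: compact groups of automorphisms without invariant polynomials: the converse.
-/

open scoped Manifold ContDiff Topology Bundle
open Set Metric Complex Filter Bundle IsManifold Manifold Module

set_option maxSynthPendingDepth 3
set_option linter.unusedSectionVars false

noncomputable section

namespace Vale.Agent.P253.H22

variable {E : Type*} [NormedAddCommGroup E] [NormedSpace ℂ E] [FiniteDimensional ℂ E]
  {M : Type*} [MetricSpace M] [ChartedSpace E M]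
  [IsManifold 𝓘(ℂ, E) 1 M]

/-- the rotations of `ℂⁿ` -/
theorem exists_group (F : M ≃ₘ^1⟮𝓘(ℂ, E), 𝓘(ℂ, E)⟯ E) : ∃ (p : M) (G : Set (M → M)),
    (∀ g ∈ G, MDifferentiable 𝓘(ℂ, E) 𝓘(ℂ, E) g ∧ g p = p) ∧
    (∀ g ∈ G, ∀ h ∈ G, g ∘ h ∈ G ∧ ∀ x, g (h x) = h (g x)) ∧
    (∀ g ∈ G, ∃ h ∈ G, ∀ x, h (g x) = x) ∧
    (∀ C : Set M, IsCompact C → ∃ C' : Set M, IsCompact C' ∧ ∀ g ∈ G, ∀ x ∈ C, g x ∈ C') ∧
    ∀ (k : ℕ) (q : MultilinearMap ℂ (fun _ : Fin k => E) ℂ), 0 < k →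
      (∀ g ∈ G, ∀ v : E, q (fun _ => (mfderiv 𝓘(ℂ, E) 𝓘(ℂ, E) g p : E → E) v) =
        q (fun _ => v)) → ∀ v, q (fun _ => v) = 0 := by
  have : ProperSpace E := FiniteDimensional.proper ℂ E
  set g : ℝ → M → M := fun θ x => F.symm (exp (θ * I) • F x) with hg
  have hgp : ∀ θ, g θ (F.symm 0) = F.symm 0 := by
    intro θ
    simp [hg]
  have hFs : ∀ w, F (F.symm w) = w := F.apply_symm_apply
  have hadd : ∀ s t x, g s (g t x) = g (s + t) x := by
    intro s t x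
    simp only [hg, hFs, smul_smul, ← Complex.exp_add]
    congr 3
    push_cast
    ring
  have hd : ∀ θ, MDifferentiable 𝓘(ℂ, E) 𝓘(ℂ, E) (g θ) := by
    intro θ
    have h1 : MDifferentiable 𝓘(ℂ, E) 𝓘(ℂ, E) (fun w : E => exp (θ * I) • w) := by
      have h2 : Differentiable ℂ (fun w : E => exp (θ * I) • w) := by fun_prop
      exact h2.mdifferentiable
    exact (F.symm.contMDiff.mdifferentiable (by simp)).comp
      (h1.comp (F.contMDiff.mdifferentiable (by simp)))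
  refine ⟨F.symm 0, range g, ?_, ?_, ?_, ?_, ?_⟩
  · rintro _ ⟨θ, rfl⟩
    exact ⟨hd θ, hgp θ⟩
  · rintro _ ⟨s, rfl⟩ _ ⟨t, rfl⟩
    exact ⟨⟨s + t, funext fun x => (hadd s t x).symm⟩, fun x => by
      rw [hadd, hadd, add_comm]⟩
  · rintro _ ⟨s, rfl⟩
    refine ⟨g (-s), ⟨-s, rfl⟩, fun x => ?_⟩
    rw [hadd, neg_add_cancel]
    simp [hg]
  · intro C hC
    obtain ⟨R, hR⟩ := ((hC.image F.continuous).isBounded).subset_closedBall (0 : E)
    refine ⟨F.symm '' closedBall 0 R, (isCompact_closedBall 0 R).image F.symm.continuous, ?_⟩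
    rintro _ ⟨θ, rfl⟩ x hx
    refine ⟨exp (θ * I) • F x, ?_, rfl⟩
    have h1 := hR ⟨x, hx, rfl⟩
    rw [mem_closedBall_zero_iff] at h1 ⊢
    rwa [norm_smul, Complex.norm_exp_ofReal_mul_I, one_mul]
  · intro k q hk hinv v
    -- the differential of a rotation
    have hder : ∀ θ : ℝ, ∀ w : E,
        (mfderiv 𝓘(ℂ, E) 𝓘(ℂ, E) (g θ) (F.symm 0) : E → E) w = exp (θ * I) • w := by
      intro θ w
      have hA := (F.contMDiff.mdifferentiable (by simp) (F.symm 0)).hasMFDerivAt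
      have hL : HasMFDerivAt 𝓘(ℂ, E) 𝓘(ℂ, E) (fun w : E => exp (θ * I) • w) (F (F.symm 0))
          (exp (θ * I) • ContinuousLinearMap.id ℂ E) := by
        have h2 : HasFDerivAt (fun w : E => exp (θ * I) • w)
            (exp (θ * I) • ContinuousLinearMap.id ℂ E) (F (F.symm 0)) :=
          (hasFDerivAt_id _).const_smul _
        exact h2.hasMFDerivAt
      have hpt : exp (θ * I) • F (F.symm 0) = F (F.symm 0) := by simp
      have hB : HasMFDerivAt 𝓘(ℂ, E) 𝓘(ℂ, E) F.symm (exp (θ * I) • F (F.symm 0))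
          (mfderiv 𝓘(ℂ, E) 𝓘(ℂ, E) F.symm (F (F.symm 0)) : E →L[ℂ] E) := by
        rw [hpt]
        exact (F.symm.contMDiff.mdifferentiable (by simp) _).hasMFDerivAt
      have h3 := HasMFDerivAt.comp (F.symm 0) hB (HasMFDerivAt.comp (F.symm 0) hL hA)
      have h4 : HasMFDerivAt 𝓘(ℂ, E) 𝓘(ℂ, E) (fun x => F.symm (F x)) (F.symm 0)
          ((mfderiv 𝓘(ℂ, E) 𝓘(ℂ, E) F.symm (F (F.symm 0)) : E →L[ℂ] E).comp
            (mfderiv 𝓘(ℂ, E) 𝓘(ℂ, E) F (F.symm 0) : E →L[ℂ] E)) :=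
        HasMFDerivAt.comp (F.symm 0)
          (F.symm.contMDiff.mdifferentiable (by simp) _).hasMFDerivAt hA
      have h5 : HasMFDerivAt 𝓘(ℂ, E) 𝓘(ℂ, E) (fun x => F.symm (F x)) (F.symm 0)
          (ContinuousLinearMap.id ℂ E) := by
        have h6 : (fun x => F.symm (F x)) = id := by
          funext x
          exact F.symm_apply_apply x
        rw [h6]
        exact hasMFDerivAt_id _
      have h7 := hasMFDerivAt_unique h4 h5
      have h8 : ∀ u : E, (mfderiv 𝓘(ℂ, E) 𝓘(ℂ, E) F.symm (F (F.symm 0)) : E →L[ℂ] E)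
          ((mfderiv 𝓘(ℂ, E) 𝓘(ℂ, E) F (F.symm 0) : E →L[ℂ] E) u) = u := fun u =>
        congrArg (fun L : E →L[ℂ] E => L u) h7
      have h9 := h3.mfderiv
      change (mfderiv 𝓘(ℂ, E) 𝓘(ℂ, E) (g θ) (F.symm 0)) = _ at h9
      rw [h9]
      change (mfderiv 𝓘(ℂ, E) 𝓘(ℂ, E) F.symm (F (F.symm 0)) : E →L[ℂ] E)
        (exp (θ * I) • (mfderiv 𝓘(ℂ, E) 𝓘(ℂ, E) F (F.symm 0) : E →L[ℂ] E) w) = _
      rw [map_smul, h8]
      rfl
    have h1 := hinv (g (Real.pi / k)) ⟨_, rfl⟩ v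
    have h2 : (fun _ : Fin k => (mfderiv 𝓘(ℂ, E) 𝓘(ℂ, E) (g (Real.pi / k)) (F.symm 0) : E → E) v)
        = fun i => (fun _ : Fin k => exp ((Real.pi / k : ℝ) * I)) i • (fun _ : Fin k => v) i :=
      funext fun _ => hder _ v
    rw [h2, MultilinearMap.map_smul_univ] at h1
    have hk0 : (k : ℂ) ≠ 0 := by exact_mod_cast hk.ne'
    have h3 : ∏ _i : Fin k, exp ((Real.pi / k : ℝ) * I) = -1 := by
      rw [Finset.prod_const, Finset.card_univ, Fintype.card_fin, ← Complex.exp_nat_mul]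
      have h4 : (k : ℂ) * ((Real.pi / k : ℝ) * I) = Real.pi * I := by
        push_cast
        field_simp
      rw [h4, Complex.exp_pi_mul_I]
    rw [h3, smul_eq_mul, neg_one_mul] at h1
    exact CharZero.neg_eq_self_iff.1 h1

end Vale.Agent.P253.H22
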