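import Vale.Agent.P253.H22.NeR
import Vale.Agent.P253.H22.NForm
import Vale.Agent.P253.H22.DMain
import Vale.Agent.P253.H661.Lim
import Vale.Agent.P253.H836.Calka

/-!
P253: distance-nonincreasing holomorphic self-maps of complete Kähler manifolds of positive
bisectional curvature: final statements.
-/

open scoped Manifold ContDiff Topology Bundle
open Set Metric Complex Filter Bundle IsManifold Manifold Module
  Vale.Agent.P253.Mfd Vale.Agent.P253.CStar Vale.Agent.P253.R2 Vale.Agent.P253.H595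

set_option maxSynthPendingDepth 3
set_option linter.unusedSectionVars false

noncomputable section

namespace Vale.Agent.P253.H22

variable {E : Type*} [NormedAddCommGroup E] [NormedSpace ℂ E] [FiniteDimensional ℂ E]
  {M : Type*} [MetricSpace M] [ChartedSpace E M]
  [IsManifold 𝓘(ℂ, E) 1 M] [IsManifold 𝓘(ℝ, E) ∞ M]
  [RiemannianBundle (fun x : M => TangentSpace 𝓘(ℝ, E) x)]
  [IsContMDiffRiemannianBundle 𝓘(ℝ, E) ∞ E (fun x : M => TangentSpace 𝓘(ℝ, E) x)]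
  [IsRiemannianManifold 𝓘(ℝ, E) M] [CompleteSpace M] [NoncompactSpace M] [ConnectedSpace M]

/-- (2) -/
theorem main_retraction (hK : IsKahler E M) (hpos : ∀ x : M, PosBisectionalAt E x)
    {e : M → M} (he : MDifferentiable 𝓘(ℂ, E) 𝓘(ℂ, E) e)
    (hlip : ∀ x y, dist (e x) (e y) ≤ dist x y) (hidem : ∀ x, e (e x) = e x) :
    (∀ x, e x = x) ∨ ∃ p, ∀ x, e x = p := by
  by_cases hb : Bornology.IsBounded (range e)
  · exact Or.inr (const_of_bounded hK hpos he hb)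
  · obtain ⟨r, hr, hinj⟩ := exists_inj_of_unbounded hK hpos he hlip hidem hb
    exact Or.inl (H661.idem_id he hidem hr hinj)

/-- the iterates of a holomorphic map are holomorphic -/
theorem mdifferentiable_iterate {f : M → M} (hf : MDifferentiable 𝓘(ℂ, E) 𝓘(ℂ, E) f) (n : ℕ) :
    MDifferentiable 𝓘(ℂ, E) 𝓘(ℂ, E) (f^[n]) := by
  induction n with
  | zero => exact mdifferentiable_id
  | succ n ih =>
    rw [Function.iterate_succ']
    exact hf.comp ih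

/-- the alternative -/
theorem isometry_or_meet (hK : IsKahler E M) (hpos : ∀ x : M, PosBisectionalAt E x)
    {f : M → M} (hf : MDifferentiable 𝓘(ℂ, E) 𝓘(ℂ, E) f) (hA : AsympNonexp f)
    (hb : ∃ x, Bornology.IsBounded (range fun k : ℕ => f^[k] x)) :
    Isometry f ∨ ∃ K : Set M, IsCompact K ∧ ∀ x, ∃ k : ℕ, f^[k] x ∈ K := by
  have hP : ProperSpace M := properSpace_riemannian E M
  obtain ⟨u, e, hu, hlim, hidem, hlip, hloc⟩ := exists_retraction hf.continuous hA hb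
  have he : MDifferentiable 𝓘(ℂ, E) 𝓘(ℂ, E) e :=
    H661.holo_lim (fun j => mdifferentiable_iterate hf j) hloc
  rcases main_retraction hK hpos he hlip hidem with h | ⟨p, hp⟩
  · exact Or.inl (isometry_of_limit_id hA hu fun x => by simpa only [h x] using hlim x)
  · exact Or.inr (meet_of_limit_const (u := u) (p := p) fun x => by
      simpa only [hp x] using hlim x)

/-- (1) -/
theorem main_nonexp (hK : IsKahler E M) (hpos : ∀ x : M, PosBisectionalAt E x)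
    {f : M → M} (hf : MDifferentiable 𝓘(ℂ, E) 𝓘(ℂ, E) f) (hA : AsympNonexp f)
    (hb : ∃ x, Bornology.IsBounded (range fun k : ℕ => f^[k] x)) :
    Isometry f ∨ ∃ p, f p = p ∧
      (∀ C : Set M, IsCompact C → ∀ W ∈ 𝓝 p, ∀ᶠ k : ℕ in atTop, ∀ x ∈ C, f^[k] x ∈ W) ∧
      (Function.Injective f → ∃ e ∈ maximalAtlas 𝓘(ℂ, E) 1 M, e.source = univ) ∧
      (Function.Bijective f → ∃ F : M ≃ₘ^1⟮𝓘(ℂ, E), 𝓘(ℂ, E)⟯ E, F p = 0 ∧
        ∀ v : E, (mfderiv 𝓘(ℂ, E) 𝓘(ℂ, E) F p : E → E) v = v) := by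
  refine (isometry_or_meet hK hpos hf hA hb).imp id fun hmeet => ?_
  obtain ⟨p, hp, hc, hi, hbij⟩ := main_map hK hpos hf hmeet
  refine ⟨p, hp, hc, fun hinj => ?_, hbij⟩
  obtain ⟨e, he, hs, -⟩ := hi hinj
  exact ⟨e, he, hs⟩

/-- **trichotomy** -/
theorem main_tri (hK : IsKahler E M) (hpos : ∀ x : M, PosBisectionalAt E x)
    {f : M → M} (hf : MDifferentiable 𝓘(ℂ, E) 𝓘(ℂ, E) f) (hA : AsympNonexp f) :
    (∀ x, Tendsto (fun k : ℕ => f^[k] x) atTop (cocompact M)) ∨ Isometry f ∨ ∃ p, f p = p ∧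
      (∀ C : Set M, IsCompact C → ∀ W ∈ 𝓝 p, ∀ᶠ k : ℕ in atTop, ∀ x ∈ C, f^[k] x ∈ W) ∧
      (Function.Injective f → ∃ e ∈ maximalAtlas 𝓘(ℂ, E) 1 M, e.source = univ) ∧
      (Function.Bijective f → ∃ F : M ≃ₘ^1⟮𝓘(ℂ, E), 𝓘(ℂ, E)⟯ E, F p = 0 ∧
        ∀ v : E, (mfderiv 𝓘(ℂ, E) 𝓘(ℂ, E) F p : E → E) v = v) := by
  have hP : ProperSpace M := properSpace_riemannian E M
  by_cases h : ∀ x, Tendsto (fun k : ℕ => f^[k] x) atTop (cocompact M)
  · exact Or.inl h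
  · push Not at h
    obtain ⟨x, hx⟩ := h
    exact Or.inr (main_nonexp hK hpos hf hA
      ⟨x, H836.bounded_of_not_tendsto hf.continuous hA hx x⟩)

theorem iterate_semi {ρ : ℝ → M → M} (hρ : H567.IsHolSemigroup E ρ) (n : ℕ) (x : M) :
    (ρ 1)^[n] x = ρ n x := by
  induction n with
  | zero => simp [hρ.zero]
  | succ n ih =>
    rw [Function.iterate_succ_apply', ih, ← hρ.add _ _ _ zero_le_one n.cast_nonneg]
    congr 1
    push_cast
    ring

/-- a semigroup which does not increase distances: isometries, or it contracts `M` to a point -/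
theorem nonexp_semi (hK : IsKahler E M) (hpos : ∀ x : M, PosBisectionalAt E x) {ρ : ℝ → M → M}
    (hρ : H567.IsHolSemigroup E ρ)
    (hlip : ∀ t : ℝ, 0 ≤ t → ∀ x y, dist (ρ t x) (ρ t y) ≤ dist x y)
    (hb : ∃ x, Bornology.IsBounded (range fun k : ℕ => (ρ 1)^[k] x)) :
    (∀ t : ℝ, 0 ≤ t → ∀ x y, dist (ρ t x) (ρ t y) = dist x y) ∨ ∃ p, (∀ t, 0 ≤ t → ρ t p = p) ∧
      (∀ C : Set M, IsCompact C → ∀ W ∈ 𝓝 p, ∀ᶠ t : ℝ in atTop, ∀ x ∈ C, ρ t x ∈ W) ∧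
      ∃ F : M ≃ₘ^1⟮𝓘(ℂ, E), 𝓘(ℂ, E)⟯ E, F p = 0 ∧
        ∀ v : E, (mfderiv 𝓘(ℂ, E) 𝓘(ℂ, E) F p : E → E) v = v := by
  rcases isometry_or_meet hK hpos (hρ.holo 1 zero_le_one)
    (asympNonexp_of_lip (hlip 1 zero_le_one)) hb with hiso | ⟨K, hKc, hmeet⟩
  · left
    intro t ht x y
    refine le_antisymm (hlip t ht x y) ?_
    obtain ⟨n, hn⟩ := exists_nat_ge t
    have h1 : ∀ m : ℕ, dist ((ρ 1)^[m] x) ((ρ 1)^[m] y) = dist x y := by
      intro m
      induction m with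
      | zero => rfl
      | succ m ih =>
        rw [Function.iterate_succ_apply', Function.iterate_succ_apply', hiso.dist_eq, ih]
    have h2 : ∀ z, (ρ 1)^[n] z = ρ (n - t) (ρ t z) := by
      intro z
      rw [iterate_semi hρ, ← hρ.add _ _ _ (by linarith) ht]
      congr 1
      ring
    rw [← h1 n, h2, h2]
    exact hlip _ (by linarith) _ _
  · exact Or.inr (main_semi hK hpos hρ ⟨K, hKc, fun x => by
      obtain ⟨k, hk⟩ := hmeet x
      rw [iterate_semi hρ] at hk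
      exact ⟨k, k.cast_nonneg, hk⟩⟩)

/-- **trichotomy for semigroups** -/
theorem semi_tri (hK : IsKahler E M) (hpos : ∀ x : M, PosBisectionalAt E x) {ρ : ℝ → M → M}
    (hρ : H567.IsHolSemigroup E ρ)
    (hlip : ∀ t : ℝ, 0 ≤ t → ∀ x y, dist (ρ t x) (ρ t y) ≤ dist x y) :
    (∀ x, Tendsto (fun t : ℝ => ρ t x) atTop (cocompact M)) ∨
    (∀ t : ℝ, 0 ≤ t → ∀ x y, dist (ρ t x) (ρ t y) = dist x y) ∨ ∃ p, (∀ t, 0 ≤ t → ρ t p = p) ∧
      (∀ C : Set M, IsCompact C → ∀ W ∈ 𝓝 p, ∀ᶠ t : ℝ in atTop, ∀ x ∈ C, ρ t x ∈ W) ∧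
      ∃ F : M ≃ₘ^1⟮𝓘(ℂ, E), 𝓘(ℂ, E)⟯ E, F p = 0 ∧
        ∀ v : E, (mfderiv 𝓘(ℂ, E) 𝓘(ℂ, E) F p : E → E) v = v := by
  have hP : ProperSpace M := properSpace_riemannian E M
  by_cases h : ∀ x, Tendsto (fun k : ℕ => (ρ 1)^[k] x) atTop (cocompact M)
  · left
    intro x
    -- bounded displacement on unit intervals
    have hc : ContinuousOn (fun s : ℝ => dist (ρ s x) x) (Icc 0 1) := by
      have h1 : ContinuousOn (fun s : ℝ => ρ s x) (Icc 0 1) := by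
        refine hρ.cont.comp (f := fun s : ℝ => (s, x)) (by fun_prop) fun s hs => ?_
        exact hs.1
      exact (show Continuous fun y : M => dist y x by fun_prop).comp_continuousOn h1
    obtain ⟨B, hB⟩ := (isCompact_Icc.image_of_continuousOn hc).isBounded.bddAbove
    have hfl : Tendsto (fun t : ℝ => ⌊t⌋₊) atTop atTop := tendsto_nat_floor_atTop
    have h1 := (h x).comp hfl
    rw [← Metric.cobounded_eq_cocompact, ← tendsto_dist_left_atTop_iff x] at h1 ⊢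
    have h2 : Tendsto (fun t : ℝ => dist x ((ρ 1)^[⌊t⌋₊] x) - B) atTop atTop :=
      tendsto_atTop_add_const_right _ _ h1
    refine tendsto_atTop_mono' _ ?_ h2
    filter_upwards [eventually_ge_atTop 0] with t ht
    have h3 : ρ t x = ρ (⌊t⌋₊ : ℝ) (ρ (t - ⌊t⌋₊) x) := by
      rw [← hρ.add _ _ _ (Nat.cast_nonneg _) (sub_nonneg.2 (Nat.floor_le ht))]
      congr 1
      ring
    have h4 : dist (ρ t x) (ρ (⌊t⌋₊ : ℝ) x) ≤ B := by
      rw [h3]
      refine (hlip _ (Nat.cast_nonneg _) _ _).trans (hB ⟨t - ⌊t⌋₊, ⟨?_, ?_⟩, rfl⟩)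
      · exact sub_nonneg.2 (Nat.floor_le ht)
      · have := Nat.lt_floor_add_one t
        linarith
    rw [iterate_semi hρ]
    have h5 := dist_triangle x (ρ t x) (ρ (⌊t⌋₊ : ℝ) x)
    linarith
  · push Not at h
    obtain ⟨x, hx⟩ := h
    exact Or.inr (nonexp_semi hK hpos hρ hlip ⟨x, H836.bounded_of_not_tendsto
      (hρ.holo 1 zero_le_one).continuous (asympNonexp_of_lip (hlip 1 zero_le_one)) hx x⟩)

/-- reversed flow -/
theorem cflow_neg {ψ : ℂ → M → M} (hψ : IsHolCFlow E ψ) :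
    IsHolCFlow E (fun ζ x => ψ (-ζ) x) where
  zero x := by simp only [neg_zero, hψ.zero]
  add s t x := by simp only [neg_add, hψ.add]
  holo := by
    have h1 : ContMDiff (𝓘(ℂ, ℂ).prod 𝓘(ℂ, E)) (𝓘(ℂ, ℂ).prod 𝓘(ℂ, E)) 1
        (fun q : ℂ × M => (-q.1, q.2)) :=
      (contMDiff_fst.neg).prodMk contMDiff_snd
    exact hψ.holo.comp h1

/-- **trichotomy for flows** -/
theorem flow_tri (hK : IsKahler E M) (hpos : ∀ x : M, PosBisectionalAt E x) {ψ : ℂ → M → M}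
    (hψ : IsHolCFlow E ψ)
    (hlip : ∀ t : ℝ, 0 ≤ t → ∀ x y, dist (ψ (-t) x) (ψ (-t) y) ≤ dist x y) :
    (∀ x, Tendsto (fun t : ℝ => ψ (-t) x) atTop (cocompact M)) ∨
    (∀ (t : ℝ) x y, dist (ψ t x) (ψ t y) = dist x y) ∨ ∃ p, (∀ ζ, ψ ζ p = p) ∧
      (∀ C : Set M, IsCompact C → ∀ W ∈ 𝓝 p, ∀ᶠ t : ℝ in atTop, ∀ x ∈ C, ψ (-t) x ∈ W) ∧
      ∃ F : M ≃ₘ^1⟮𝓘(ℂ, E), 𝓘(ℂ, E)⟯ E, F p = 0 ∧
        ∀ v : E, (mfderiv 𝓘(ℂ, E) 𝓘(ℂ, E) F p : E → E) v = v := by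
  rcases semi_tri hK hpos (semigroup_of_cflow (cflow_neg hψ)) hlip with h | hneg | ⟨p, h1, h2, h3⟩
  · exact Or.inl h
  · right
    left
    intro t x y
    rcases le_total 0 t with ht | ht
    · have h1 : dist (ψ (-t) (ψ t x)) (ψ (-t) (ψ t y)) = dist (ψ t x) (ψ t y) := hneg t ht _ _
      rwa [← hψ.add, ← hψ.add, neg_add_cancel, hψ.zero, hψ.zero, eq_comm] at h1
    · have h1 : dist (ψ (-((-t : ℝ) : ℂ)) x) (ψ (-((-t : ℝ) : ℂ)) y) = dist x y :=
        hneg (-t) (by linarith) x y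
      push_cast at h1
      rwa [neg_neg] at h1
  · right
    right
    refine ⟨p, fun ζ => ?_, h2, h3⟩
    by_contra hne
    obtain ⟨t, ht, ht0⟩ := ((h2 {ψ ζ p} isCompact_singleton {ψ ζ p}ᶜ
      (isOpen_compl_singleton.mem_nhds (Ne.symm hne))).and (eventually_ge_atTop 0)).exists
    refine ht _ rfl ?_
    have h4 : ψ (-(t:ℂ)) p = p := h1 t ht0
    change ψ (-(t:ℂ)) (ψ ζ p) = ψ ζ p
    rw [← hψ.add, add_comm, hψ.add, h4]

end Vale.Agent.P253.H22
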