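import Vale.Agent.P253.H22.NT
import Vale.Agent.P253.H202.LogMin

/-!
P253: holomorphic vector fields which do not decay at infinity have zeros.
-/

open scoped Manifold ContDiff Topology Bundle
open Set Metric Complex Filter Bundle IsManifold Manifold Module
  Vale.Agent.P253.Mfd Vale.Agent.P253.CStar Vale.Agent.P253.R2 Vale.Agent.P253.H595
  Vale.Agent.P253.H89 Vale.Agent.P253.H348 Vale.Agent.P253.R2.H451

set_option maxSynthPendingDepth 3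
set_option linter.unusedSectionVars false

noncomputable section

namespace Vale.Agent.P253.H22

variable {E : Type*} [NormedAddCommGroup E] [NormedSpace ℂ E] [FiniteDimensional ℂ E]
  {M : Type*} [MetricSpace M] [ChartedSpace E M]
  [RiemannianBundle (fun x : M => TangentSpace 𝓘(ℝ, E) x)]

variable (E) in
/-- `|Z|` has a local minimum, or: the bisectional curvature is `≥ k (r)`, `r` the distance to `o`,
`k` is positive and nonincreasing, `∫_0^∞ s k (s) ds = ∞`, and `|Z| ≥ c exp (- a ∫_0^r s k (s) ds)`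
outside a compact set, `c > 0`, `a < 1 / 2` -/
def NotSmall (Z : (x : M) → TangentSpace 𝓘(ℂ, E) x) : Prop :=
  (∃ x, IsLocalMin (fnorm E Z) x) ∨
  ∃ (o : M) (k : ℝ → ℝ) (c a : ℝ) (C : Set M), IsDecay k ∧
    (∀ x : M, BisectionalGe E x (k (dist o x))) ∧
    Tendsto (fun r : ℝ => ∫ s in (0:ℝ)..r, s * k s) atTop atTop ∧
    0 < c ∧ 0 ≤ a ∧ a < 1 / 2 ∧ IsCompact C ∧
    ∀ x ∉ C, c ≤ Real.exp (a * ∫ s in (0:ℝ)..dist o x, s * k s) * fnorm E Z x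

variable [IsManifold 𝓘(ℂ, E) 1 M] [IsManifold 𝓘(ℝ, E) ∞ M]
  [IsContMDiffRiemannianBundle 𝓘(ℝ, E) ∞ E (fun x : M => TangentSpace 𝓘(ℝ, E) x)]
  [IsRiemannianManifold 𝓘(ℝ, E) M] [CompleteSpace M] [NoncompactSpace M] [ConnectedSpace M]
  {Z : (x : M) → TangentSpace 𝓘(ℂ, E) x}

theorem exists_localMin_of_notSmall (hK : IsKahler E M)
    (hZ : IsHolField Z) (h : NotSmall E Z) : ∃ x, IsLocalMin (fnorm E Z) x := by
  rcases h with h | ⟨o, k, c, a, C, hk, hcurv, hdiv, hc, ha, ha', hC, hlow⟩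
  · exact h
  · obtain ⟨x, hx⟩ := H202.exists_zero_of_decay hK hk hcurv hdiv hZ hc ha ha' hC hlow
    refine ⟨x, Eventually.of_forall fun y => ?_⟩
    rw [hx]
    exact norm_nonneg _

/-- (5) -/
theorem main_five_q (hK : IsKahler E M) (hpos : ∀ x : M, PosBisectionalAt E x)
    (hZ : IsHolField Z)
    (h : (LieNonneg Z ∧ LiePosSomewhere Z ∧ NotSmall E Z) ∨
      (∃ (o : M) (k : ℝ → ℝ) (R : ℝ), Continuous k ∧ LieGeRadial Z o k ∧
        ∀ r, R ≤ r → fnorm E Z o < ∫ s in (0:ℝ)..r, k s) ∨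
      ∃ lam, IsRicciSoliton E Z lam ∧
        (lam < 0 ∨ (lam = 0 ∧ NotSmall E Z))) :
    ∃ (ψ : ℂ → M → M) (p : M), IsHolCFlow E ψ ∧ (∀ x ζ, IntAt Z (fun w => ψ w x) ζ) ∧
      (∀ ζ, ψ ζ p = p) ∧
      (∀ C : Set M, IsCompact C → ∀ W ∈ 𝓝 p, ∀ᶠ t : ℝ in atTop, ∀ x ∈ C, ψ (-t) x ∈ W) ∧
      ∃ F : M ≃ₘ^1⟮𝓘(ℂ, E), 𝓘(ℂ, E)⟯ E, F p = 0 ∧
        ∀ v : E, (mfderiv 𝓘(ℂ, E) 𝓘(ℂ, E) F p : E → E) v = v := by
  refine main_five_radial hK hpos hZ ?_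
  rcases h with ⟨h1, h2, h3⟩ | h | ⟨lam, hs, hlam | ⟨rfl, h3⟩⟩
  · exact Or.inl ⟨h1, h2, exists_localMin_of_notSmall hK hZ h3⟩
  · exact Or.inr (Or.inl h)
  · exact Or.inr (Or.inr ⟨lam, hs, Or.inl hlam⟩)
  · exact Or.inr (Or.inr ⟨0, hs, Or.inr ⟨rfl, exists_localMin_of_notSmall hK hZ h3⟩⟩)

end Vale.Agent.P253.H22
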