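import Vale.Agent.P253.H22.NFin
import Vale.Agent.P253.H836.ZMin
import Vale.Agent.P253.H661.Slow

/-!
P253: holomorphic maps and vector fields which are contracting (expanding) in the mean.
-/

open scoped Manifold ContDiff Topology Bundle
open Set Metric Complex Filter Bundle IsManifold Manifold Module
  Vale.Agent.P253.Mfd Vale.Agent.P253.CStar Vale.Agent.P253.R2 Vale.Agent.P253.H595
  Vale.Agent.P253.H89 Vale.Agent.P253.H348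

set_option maxSynthPendingDepth 3
set_option linter.unusedSectionVars false

noncomputable section

namespace Vale.Agent.P253.H22

variable {E : Type*} [NormedAddCommGroup E] [NormedSpace ℂ E] [FiniteDimensional ℂ E]
  {M : Type*} [MetricSpace M] [ChartedSpace E M]
  [IsManifold 𝓘(ℂ, E) 1 M] [IsManifold 𝓘(ℝ, E) ∞ M]
  [RiemannianBundle (fun x : M => TangentSpace 𝓘(ℝ, E) x)]
  [IsContMDiffRiemannianBundle 𝓘(ℝ, E) ∞ E (fun x : M => TangentSpace 𝓘(ℝ, E) x)]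
  [IsRiemannianManifold 𝓘(ℝ, E) M] [CompleteSpace M] [NoncompactSpace M] [ConnectedSpace M]
  {Z : (x : M) → TangentSpace 𝓘(ℂ, E) x}

/-- (2) -/
theorem main_mean (hK : IsKahler E M) (hpos : ∀ x : M, PosBisectionalAt E x)
    {f : M → M} (hf : MDifferentiable 𝓘(ℂ, E) 𝓘(ℂ, E) f) {o : M} {l : ℝ → ℝ} (hl : Continuous l)
    (hd : ∀ (x : M) (v : TangentSpace 𝓘(ℝ, E) x),
      ‖(mfderiv 𝓘(ℝ, E) 𝓘(ℝ, E) f x v : TangentSpace 𝓘(ℝ, E) (f x))‖ ≤ l (dist o x) * ‖v‖)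
    {R₀ : ℝ} (hR : ∀ r, R₀ ≤ r → dist o (f o) + ∫ s in (0:ℝ)..r, l s < r) :
    ∃ p, f p = p ∧
      (∀ C : Set M, IsCompact C → ∀ W ∈ 𝓝 p, ∀ᶠ k : ℕ in atTop, ∀ x ∈ C, f^[k] x ∈ W) ∧
      (Function.Injective f → ∃ e ∈ maximalAtlas 𝓘(ℂ, E) 1 M, e.source = univ) ∧
      (Function.Bijective f → ∃ F : M ≃ₘ^1⟮𝓘(ℂ, E), 𝓘(ℂ, E)⟯ E, F p = 0 ∧
        ∀ v : E, (mfderiv 𝓘(ℂ, E) 𝓘(ℂ, E) F p : E → E) v = v) := by
  obtain ⟨p, hp, hc, hi, hbij⟩ := main_map hK hpos hf (H661.slow_meet hf hl hd hR)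
  refine ⟨p, hp, hc, fun hinj => ?_, hbij⟩
  obtain ⟨e, he, hs, -⟩ := hi hinj
  exact ⟨e, he, hs⟩

/-- (5) -/
theorem main_five (hK : IsKahler E M) (hpos : ∀ x : M, PosBisectionalAt E x)
    (hZ : IsHolField Z)
    (h : (LieNonneg Z ∧ LiePosSomewhere Z ∧ ∃ x, IsLocalMin (fnorm E Z) x) ∨
      (∃ c, 0 < c ∧ LieGe Z c) ∨
      ∃ lam, IsRicciSoliton E Z lam ∧
        (lam < 0 ∨ (lam = 0 ∧ ∃ x, IsLocalMin (fnorm E Z) x))) :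
    ∃ (ψ : ℂ → M → M) (p : M), IsHolCFlow E ψ ∧ (∀ x ζ, IntAt Z (fun w => ψ w x) ζ) ∧
      (∀ ζ, ψ ζ p = p) ∧
      (∀ C : Set M, IsCompact C → ∀ W ∈ 𝓝 p, ∀ᶠ t : ℝ in atTop, ∀ x ∈ C, ψ (-t) x ∈ W) ∧
      ∃ F : M ≃ₘ^1⟮𝓘(ℂ, E), 𝓘(ℂ, E)⟯ E, F p = 0 ∧
        ∀ v : E, (mfderiv 𝓘(ℂ, E) 𝓘(ℂ, E) F p : E → E) v = v := by
  rcases h with ⟨h1, h2, x, hx⟩ | h1 | ⟨lam, hs, hlam | ⟨rfl, x, hx⟩⟩
  · exact main_lie_zero hK hpos hZ h1 h2 ⟨x, H836.eq_zero_of_isLocalMin hK (hpos x) hZ hx⟩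
  · exact main_soliton hK hpos hZ (Or.inl h1)
  · exact main_soliton hK hpos hZ (Or.inr ⟨lam, hs, Or.inl hlam⟩)
  · exact main_soliton hK hpos hZ
      (Or.inr ⟨0, hs, Or.inr ⟨rfl, x, H836.eq_zero_of_isLocalMin hK (hpos x) hZ hx⟩⟩)

end Vale.Agent.P253.H22
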