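import Vale.Agent.P253.H22.NS
import Vale.Agent.P253.H661.ZDisB

/-!
P253: holomorphic maps and vector fields which are contracting (expanding) in the mean.
-/

open scoped Manifold ContDiff Topology Bundle
open Set Metric Complex Filter Bundle IsManifold Manifold Module
  Vale.Agent.P253.Mfd Vale.Agent.P253.CStar Vale.Agent.P253.R2 Vale.Agent.P253.H595
  Vale.Agent.P253.H89 Vale.Agent.P253.H348

set_option maxSynthPendingDepth 3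
set_option linter.unusedSectionVars false

noncomputable section

namespace Vale.Agent.P253.H22

variable {E : Type*} [NormedAddCommGroup E] [NormedSpace ℂ E] [FiniteDimensional ℂ E]
  {M : Type*} [MetricSpace M] [ChartedSpace E M]
  [IsManifold 𝓘(ℂ, E) 1 M] [IsManifold 𝓘(ℝ, E) ∞ M]
  [RiemannianBundle (fun x : M => TangentSpace 𝓘(ℝ, E) x)]
  [IsContMDiffRiemannianBundle 𝓘(ℝ, E) ∞ E (fun x : M => TangentSpace 𝓘(ℝ, E) x)]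
  [IsRiemannianManifold 𝓘(ℝ, E) M] [CompleteSpace M] [NoncompactSpace M] [ConnectedSpace M]
  {Z : (x : M) → TangentSpace 𝓘(ℂ, E) x}

/-- `g (∇_a Z, a) ≥ k (r) g (a, a)`, `r` the distance to `o` -/
def LieGeRadial (Z : (x : M) → TangentSpace 𝓘(ℂ, E) x) (o : M) (k : ℝ → ℝ) : Prop :=
  ∀ e ∈ maximalAtlas 𝓘(ℂ, E) 1 M, ∀ z ∈ e.target, ∀ Γ, IsChristoffel e z Γ →
    ∀ a, k (dist o (e.symm z)) * chartMetric e z a a ≤ HalfLie e z Γ Z a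

/-- (7) -/
theorem main_field_mean (hK : IsKahler E M) (hpos : ∀ x : M, PosBisectionalAt E x)
    (hZ : IsHolField Z) {o : M} {k : ℝ → ℝ} (hk : Continuous k) (h : LieGeRadial Z o k)
    {R₀ : ℝ} (hR : ∀ r, R₀ ≤ r → fnorm E Z o < ∫ s in (0:ℝ)..r, k s) :
    ∃ (ψ : ℂ → M → M) (p : M), IsHolCFlow E ψ ∧ (∀ x ζ, IntAt Z (fun w => ψ w x) ζ) ∧
      (∀ ζ, ψ ζ p = p) ∧
      (∀ C : Set M, IsCompact C → ∀ W ∈ 𝓝 p, ∀ᶠ t : ℝ in atTop, ∀ x ∈ C, ψ (-t) x ∈ W) ∧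
      ∃ F : M ≃ₘ^1⟮𝓘(ℂ, E), 𝓘(ℂ, E)⟯ E, F p = 0 ∧
        ∀ v : E, (mfderiv 𝓘(ℂ, E) 𝓘(ℂ, E) F p : E → E) v = v := by
  have hS : ∀ e ∈ maximalAtlas 𝓘(ℂ, E) 1 M, ∀ z ∈ e.target, ∀ a,
      k (dist o (e.symm z)) * chartG e z a a ≤
        Sfun (chartG e) (fun y : E => comps Z e (e.symm y)) z a := by
    intro e he z hz a
    obtain ⟨Γ, hΓ⟩ := exists_christoffel hK he hz
    rw [Sfun_comps hK he hz hΓ, chartG_apply]
    exact h e he z hz Γ hΓ a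
  set Z' : (x : M) → TangentSpace 𝓘(ℂ, E) x := fun x => -(Z x) with hZ'
  have hZ'h : IsHolField Z' := by
    intro e he z hz
    have h1 := (hZ e he z hz).neg
    refine h1.congr (fun y _ => ?_) ?_
    · exact H502.comps_neg Z e _
    · exact H502.comps_neg Z e _
  have hP : ProperSpace M := properSpace_riemannian E M
  obtain ⟨ψ, p, hψ, hint, h1, h2, h3⟩ := main_field hK hpos hZ'h (H661.diss_neg hK hZ hk hS hR)
  refine ⟨fun ζ x => ψ (-ζ) x, p, cflow_neg hψ, fun x ζ => ?_, fun ζ => ?_, ?_, h3⟩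
  · have h4 : HasMFDerivAt 𝓘(ℂ, ℂ) 𝓘(ℂ, ℂ) (fun w : ℂ => -w) ζ (-(1 : ℂ →L[ℂ] ℂ)) := by
      have h5 : HasFDerivAt (fun w : ℂ => -w) (-(1 : ℂ →L[ℂ] ℂ)) ζ := (hasFDerivAt_id ζ).neg
      exact h5.hasMFDerivAt
    have h5 := HasMFDerivAt.comp ζ (g := fun w => ψ w x) (f := fun w : ℂ => -w) (hint x (-ζ)) h4
    refine h5.congr_mfderiv ?_
    ext
    change (-(1 : ℂ)) • (-(Z (ψ (-ζ) x) : E)) = (1 : ℂ) • (Z (ψ (-ζ) x) : E)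
    rw [neg_smul, smul_neg, neg_neg]
  · by_contra hne
    obtain ⟨t, ht, ht0⟩ := ((h2 {ψ (-ζ) p} isCompact_singleton {ψ (-ζ) p}ᶜ
      (isOpen_compl_singleton.mem_nhds (Ne.symm hne))).and (eventually_ge_atTop 0)).exists
    refine ht _ rfl ?_
    change ψ (t:ℂ) (ψ (-ζ) p) = ψ (-ζ) p
    rw [← hψ.add, add_comm, hψ.add, h1 t ht0]
  · simpa only [neg_neg] using h2

/-- (5) -/
theorem main_five_radial (hK : IsKahler E M) (hpos : ∀ x : M, PosBisectionalAt E x)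
    (hZ : IsHolField Z)
    (h : (LieNonneg Z ∧ LiePosSomewhere Z ∧ ∃ x, IsLocalMin (fnorm E Z) x) ∨
      (∃ (o : M) (k : ℝ → ℝ) (R : ℝ), Continuous k ∧ LieGeRadial Z o k ∧
        ∀ r, R ≤ r → fnorm E Z o < ∫ s in (0:ℝ)..r, k s) ∨
      ∃ lam, IsRicciSoliton E Z lam ∧
        (lam < 0 ∨ (lam = 0 ∧ ∃ x, IsLocalMin (fnorm E Z) x))) :
    ∃ (ψ : ℂ → M → M) (p : M), IsHolCFlow E ψ ∧ (∀ x ζ, IntAt Z (fun w => ψ w x) ζ) ∧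
      (∀ ζ, ψ ζ p = p) ∧
      (∀ C : Set M, IsCompact C → ∀ W ∈ 𝓝 p, ∀ᶠ t : ℝ in atTop, ∀ x ∈ C, ψ (-t) x ∈ W) ∧
      ∃ F : M ≃ₘ^1⟮𝓘(ℂ, E), 𝓘(ℂ, E)⟯ E, F p = 0 ∧
        ∀ v : E, (mfderiv 𝓘(ℂ, E) 𝓘(ℂ, E) F p : E → E) v = v := by
  rcases h with ⟨h1, h2, x, hx⟩ | ⟨o, k, R, hk, h1, h2⟩ | ⟨lam, hs, hlam | ⟨rfl, x, hx⟩⟩
  · exact main_lie_zero hK hpos hZ h1 h2 ⟨x, H836.eq_zero_of_isLocalMin hK (hpos x) hZ hx⟩
  · exact main_field_mean hK hpos hZ hk h1 h2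
  · exact main_soliton hK hpos hZ (Or.inr ⟨lam, hs, Or.inl hlam⟩)
  · exact main_soliton hK hpos hZ
      (Or.inr ⟨0, hs, Or.inr ⟨rfl, x, H836.eq_zero_of_isLocalMin hK (hpos x) hZ hx⟩⟩)

end Vale.Agent.P253.H22
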