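import Vale.Agent.P253.H89.Fam

/-!
P253: distance-nonincreasing holomorphic retractions of a complete Kähler manifold of positive
bisectional curvature: the differential at a fixed point.
-/

open scoped Manifold ContDiff Topology Bundle
open Set Metric Complex Filter Bundle IsManifold Manifold Module Vale.Agent.P253.Mfd
  Vale.Agent.P253.H805

set_option maxSynthPendingDepth 3
set_option linter.unusedSectionVars false

noncomputable section

namespace Vale.Agent.P253.H22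

variable {E : Type*} [NormedAddCommGroup E] [NormedSpace ℂ E] [FiniteDimensional ℂ E]
  {M : Type*} [MetricSpace M] [ChartedSpace E M]
  [IsManifold 𝓘(ℂ, E) 1 M] [IsManifold 𝓘(ℝ, E) ∞ M]
  [RiemannianBundle (fun x : M => TangentSpace 𝓘(ℝ, E) x)]
  [IsContMDiffRiemannianBundle 𝓘(ℝ, E) ∞ E (fun x : M => TangentSpace 𝓘(ℝ, E) x)]
  [IsRiemannianManifold 𝓘(ℝ, E) M]

/-- the differential of a distance-nonincreasing holomorphic map `e` is injective at a fixed point
`r₁` between two fixed points `r₀`, `q`, `q` far -/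
theorem ker_trivial (hK : IsKahler E M) [ProperSpace M]
    (hnn : ∀ x : M, NonnegBisectionalAt E x) {e : M → M} (he : MDifferentiable 𝓘(ℂ, E) 𝓘(ℂ, E) e)
    (hlip : ∀ x y, dist (e x) (e y) ≤ dist x y) {r₀ q r₁ : M} (hq : e q = q)
    (h1 : e r₁ = r₁) (hd : dist r₀ r₁ + dist r₁ q = dist r₀ q) (hne : r₁ ≠ r₀) {c : ℝ}
    (hc : 0 < c) (hlev : LeviBound (E := E) q r₁ (-c)) {Y : E}
    (hY : fderiv ℂ (chartAt E r₁ ∘ e ∘ (chartAt E r₁).symm) (chartAt E r₁ r₁) Y = 0) : Y = 0 := by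
  set ch := chartAt E r₁ with hch
  have hche : ch ∈ maximalAtlas 𝓘(ℂ, E) 1 M := chart_mem_maximalAtlas r₁
  have hs : r₁ ∈ ch.source := mem_chart_source E r₁
  set w : ℂ → E := fun z => ch r₁ + z • Y with hw
  set f₀ : ℂ → M := fun z => ch.symm (w z) with hf₀
  have hwc : Continuous w := by fun_prop
  have hw0 : w 0 = ch r₁ := by simp [hw]
  set U : Set ℂ := w ⁻¹' ch.target with hU
  have hUo : IsOpen U := ch.open_target.preimage hwc
  have h0U : (0:ℂ) ∈ U := by
    change w 0 ∈ ch.target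
    rw [hw0]
    exact ch.map_source hs
  have hf00 : f₀ 0 = r₁ := by
    change ch.symm (w 0) = r₁
    rw [hw0, ch.left_inv hs]
  have hfd : ∀ z ∈ U, MDifferentiableAt 𝓘(ℂ, ℂ) 𝓘(ℂ, E) f₀ z := by
    intro z hz
    have h2 : MDifferentiableAt 𝓘(ℂ, E) 𝓘(ℂ, E) ch.symm (w z) :=
      mdifferentiableAt_atlas_symm (I := 𝓘(ℂ, E)) (chart_mem_atlas E r₁) hz
    have h3 : MDifferentiableAt 𝓘(ℂ, ℂ) 𝓘(ℂ, E) w z := by
      have h4 : DifferentiableAt ℂ w z := by fun_prop
      exact h4.mdifferentiableAt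
    exact h2.comp z h3
  have hfdU : MDifferentiableOn 𝓘(ℂ, ℂ) 𝓘(ℂ, E) f₀ U := fun z hz =>
    (hfd z hz).mdifferentiableWithinAt
  have hgdU : MDifferentiableOn 𝓘(ℂ, ℂ) 𝓘(ℂ, E) (fun z => e (f₀ z)) U := fun z hz =>
    ((he _).comp z (hfd z hz)).mdifferentiableWithinAt
  -- velocities
  have hv0 : fderiv ℝ (fun z => ch (f₀ z)) 0 1 = Y := by
    have h2 : (fun z => ch (f₀ z)) =ᶠ[𝓝 0] w := by
      filter_upwards [hUo.mem_nhds h0U] with z hz
      exact ch.right_inv hz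
    rw [h2.fderiv_eq]
    have h3 : HasFDerivAt w ((ContinuousLinearMap.id ℂ ℂ).smulRight Y) 0 := by
      exact (((hasFDerivAt_id (0:ℂ)).smul_const Y).const_add _)
    rw [(h3.restrictScalars ℝ).fderiv]
    simp
  have hv1 : fderiv ℝ (fun z => ch (e (f₀ z))) 0 1 = 0 := by
    set F : E → E := ch ∘ e ∘ ch.symm with hF
    have h2 : (fun z => ch (e (f₀ z))) = fun z => F (w z) := rfl
    have h3 : HasFDerivAt w ((ContinuousLinearMap.id ℂ ℂ).smulRight Y) 0 := by
      exact (((hasFDerivAt_id (0:ℂ)).smul_const Y).const_add _)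
    have h4 : DifferentiableAt ℂ F (w 0) := by
      have h5 : MDifferentiableAt 𝓘(ℂ, E) 𝓘(ℂ, E) ch.symm (w 0) :=
        mdifferentiableAt_atlas_symm (I := 𝓘(ℂ, E)) (chart_mem_atlas E r₁) h0U
      have h6 : MDifferentiableAt 𝓘(ℂ, E) 𝓘(ℂ, E) ch (e (ch.symm (w 0))) := by
        have h7 : e (ch.symm (w 0)) = r₁ := by rw [hw0, ch.left_inv hs, h1]
        rw [h7]
        exact mdifferentiableAt_atlas (I := 𝓘(ℂ, E)) (chart_mem_atlas E r₁) hs
      exact (h6.comp (w 0) ((he _).comp (w 0) h5)).differentiableAt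
    have h5 : HasFDerivAt (fun z => F (w z))
        ((fderiv ℂ F (w 0)).comp ((ContinuousLinearMap.id ℂ ℂ).smulRight Y)) 0 :=
      HasFDerivAt.comp (0:ℂ) h4.hasFDerivAt h3
    rw [h2, (h5.restrictScalars ℝ).fderiv, hw0]
    simpa using hY
  by_contra hY0
  have hGpos : 0 < chartG ch (ch r₁) Y Y :=
    chartG_pos (mem_maximalAtlas_real hche) (ch.map_source hs) Y hY0
  set G : ℝ := chartG ch (ch r₁) Y Y with hG
  have hlev0 : LeviBound (E := E) r₀ r₁ (2 / dist r₁ r₀) := levi_bound hK hnn hne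
  have hη : 0 < c * G / 4 := by positivity
  have hA := H51.four_dist (f := f₀) hUo hfdU h0U hche (by rw [hf00]; exact hs) (q := q)
    (A := -c) (by rw [hf00]; exact hlev) hη
  have hB := H51.four_dist (f := fun z => e (f₀ z)) hUo hgdU h0U hche
    (by simp only [hf00, h1]; exact hs) (q := r₀)
    (A := 2 / dist r₁ r₀) (by simp only [hf00, h1]; exact hlev0) hη
  simp only [hf00, h1, hv0, hv1, neg_neg] at hA hB
  simp only [map_zero, mul_zero, zero_sub] at hB
  obtain ⟨r, ⟨hrA, hrB⟩, hr0⟩ := ((hA.and hB).and self_mem_nhdsWithin).exists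
  have hr0' : (0:ℝ) < r := hr0
  have hsum : ∑ k : Fin 4, -dist (f₀ (0 + r • (I ^ (k:ℕ)))) q ≤
      ∑ k : Fin 4, (dist (e (f₀ (0 + r • (I ^ (k:ℕ))))) r₀ - dist r₀ q) := by
    refine Finset.sum_le_sum fun k _ => ?_
    have h2 := hlip (f₀ (0 + r • (I ^ (k:ℕ)))) q
    rw [hq] at h2
    have h3 := dist_triangle r₀ (e (f₀ (0 + r • (I ^ (k:ℕ))))) q
    rw [dist_comm r₀ (e (f₀ (0 + r • (I ^ (k:ℕ)))))] at h3
    linarith
  rw [Finset.sum_sub_distrib] at hsum
  rw [Finset.sum_neg_distrib] at hrB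
  simp only [Finset.sum_const, Finset.card_univ, Fintype.card_fin, nsmul_eq_mul] at hsum
  rw [dist_comm r₀ r₁] at hd
  have h5 : (0:ℝ) < c * G * r ^ 2 := by positivity
  push_cast at hsum
  nlinarith

end Vale.Agent.P253.H22
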