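import Vale.Agent.P253.H22.Ne
import Vale.Agent.P253.H22.NeU
import Vale.Agent.P253.H577.Final

/-!
P253: distance-nonincreasing holomorphic retractions of a complete Kähler manifold of positive
bisectional curvature are the identity or constant.
-/

open scoped Manifold ContDiff Topology Bundle
open Set Metric Complex Filter Bundle IsManifold Manifold Module Vale.Agent.P253.Mfd
  Vale.Agent.P253.H805

set_option maxSynthPendingDepth 3
set_option linter.unusedSectionVars false

noncomputable section

namespace Vale.Agent.P253.H22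

/-- a set in a proper metric space which is not bounded contains far points -/
theorem exists_far_mem {X : Type*} [PseudoMetricSpace X] {S : Set X} (hS : ¬ Bornology.IsBounded S)
    (x : X) (R : ℝ) : ∃ q ∈ S, R < dist x q := by
  by_contra h
  push Not at h
  exact hS ((isBounded_closedBall (x := x) (r := R)).subset fun q hq => by
    rw [mem_closedBall, dist_comm]
    exact h q hq)

variable {E : Type*} [NormedAddCommGroup E] [NormedSpace ℂ E] [FiniteDimensional ℂ E]
  {M : Type*} [MetricSpace M] [ChartedSpace E M]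
  [IsManifold 𝓘(ℂ, E) 1 M] [IsManifold 𝓘(ℝ, E) ∞ M]
  [RiemannianBundle (fun x : M => TangentSpace 𝓘(ℝ, E) x)]
  [IsContMDiffRiemannianBundle 𝓘(ℝ, E) ∞ E (fun x : M => TangentSpace 𝓘(ℝ, E) x)]
  [IsRiemannianManifold 𝓘(ℝ, E) M] [CompleteSpace M] [NoncompactSpace M] [ConnectedSpace M]

/-- bounded image: constant -/
theorem const_of_bounded (hK : IsKahler E M) (hpos : ∀ x : M, PosBisectionalAt E x)
    {e : M → M} (he : MDifferentiable 𝓘(ℂ, E) 𝓘(ℂ, E) e) (hb : Bornology.IsBounded (range e)) :
    ∃ p, ∀ x, e x = p := by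
  have hP : ProperSpace M := properSpace_riemannian E M
  obtain ⟨p, -, hp⟩ := H89.exists_limit hK (fun x => (hpos x).nonneg) hpos
    (K := closure (range e)) hb.isCompact_closure (g := fun _ => e) (fun _ => he)
    (fun C _ => Eventually.of_forall fun _ x _ => subset_closure (mem_range_self x))
  refine ⟨p, fun x => ?_⟩
  by_contra hne
  obtain ⟨-, h⟩ := (hp {x} isCompact_singleton {e x}ᶜ
    (isOpen_compl_singleton.mem_nhds (Ne.symm hne))).exists
  exact h x rfl rfl

/-- unbounded image: the differential is injective somewhere on the image -/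
theorem exists_inj_of_unbounded (hK : IsKahler E M) (hpos : ∀ x : M, PosBisectionalAt E x)
    {e : M → M} (he : MDifferentiable 𝓘(ℂ, E) 𝓘(ℂ, E) e)
    (hlip : ∀ x y, dist (e x) (e y) ≤ dist x y) (hidem : ∀ x, e (e x) = e x)
    (hb : ¬ Bornology.IsBounded (range e)) :
    ∃ r₁, e r₁ = r₁ ∧ ∀ Y : E,
      fderiv ℂ (chartAt E r₁ ∘ e ∘ (chartAt E r₁).symm) (chartAt E r₁ r₁) Y = 0 → Y = 0 := by
  have hP : ProperSpace M := properSpace_riemannian E M
  have hnn : ∀ x : M, NonnegBisectionalAt E x := fun x => (hpos x).nonneg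
  obtain ⟨x₀⟩ : Nonempty M := inferInstance
  set r₀ := e x₀ with hr₀
  have h0 : e r₀ = r₀ := hidem x₀
  obtain ⟨c, hc, L₀, hL₀, hlev⟩ := H348.levi_strict_compact hK hnn (isCompact_closedBall r₀ 1)
    fun x _ => hpos x
  obtain ⟨q, ⟨y, rfl⟩, hq⟩ := exists_far_mem hb r₀ (L₀ + 2)
  have hq' : e (e y) = e y := hidem y
  set q := e y with hqd
  obtain ⟨r', hr1, hr2⟩ := exists_mid (approxMid_of_riemannian E M) r₀ q 1 zero_le_one
    (by linarith)
  set r₁ := e r' with hr₁
  have h1 : e r₁ = r₁ := hidem r'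
  have hd1 : dist r₀ r₁ ≤ 1 := by
    have := hlip r₀ r'
    rwa [h0, hr1] at this
  have hd2 : dist r₁ q ≤ dist r₀ q - 1 := by
    have := hlip r' q
    rwa [hq', hr2] at this
  have htri := dist_triangle r₀ r₁ q
  have hd3 : dist r₀ r₁ = 1 := by linarith
  refine ⟨r₁, h1, fun Y hY => ker_trivial hK hnn he hlip hq' h1 (r₀ := r₀) (by linarith) ?_ hc
    (hlev r₁ ?_ q (by linarith)) hY⟩
  · rintro h
    rw [h, dist_self] at hd3
    exact one_ne_zero hd3.symm
  · rw [mem_closedBall, dist_comm]
    exact hd1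

end Vale.Agent.P253.H22
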