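import Vale.Agent.P253.H22.Zero

/-!
P253: a Killing potential whose Hessian is nonnegative at one noncritical point has a positive definite
Hessian at another point (positive bisectional curvature).
-/

open scoped Manifold ContDiff Topology Bundle
open Set Metric Complex Filter Bundle IsManifold Manifold Module Vale.Agent.P253.Mfd
  Vale.Agent.P253.H577

set_option maxSynthPendingDepth 3
set_option linter.unusedSectionVars false

noncomputable section

namespace Vale.Agent.P253.H22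

section linear

variable {E : Type*} [NormedAddCommGroup E] [NormedSpace ℂ E] [FiniteDimensional ℂ E]
  {G : E → E →L[ℝ] E →L[ℝ] ℝ} {U : Set E} {z : E} {v : E → E}

/-- strict version of `top_eigenvalue_step` -/
theorem top_eigenvalue_strict (h : LocalKahler G U) (hv : ContDiffOn ℂ ∞ v U)
    (hk : Killing G v U) {y : ℝ → E} {a b : ℝ} (hab : a < b)
    (hy : ∀ t ∈ Icc a b, HasDerivWithinAt y (v (y t)) (Icc a b) t) (hyU : ∀ t ∈ Icc a b, y t ∈ U)
    (hR : ∀ t ∈ Icc a b, ∀ α ≠ 0, 0 < Rc G (y t) (v (y t)) α)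
    {Λ : ℝ} (hΛ : ∀ w, Sfun G v (y a) w ≤ Λ * G (y a) w w) {w : E} (hw : w ≠ 0) :
    Sfun G v (y b) w < Λ * G (y b) w w := by
  have hyc : ContinuousOn y (Icc a b) := fun t ht => (hy t ht).continuousWithinAt
  have hvr : ContDiffOn ℝ ∞ v U := hv.restrict_scalars ℝ
  have hvc : ContinuousOn (fun t => v (y t)) (Icc a b) := hvr.continuousOn.comp hyc hyU
  obtain ⟨β, hβ1, hβ⟩ := exists_par_back h hab.le hyc hyU hvc w
  have hβc : ContinuousOn β (Icc a b) := fun t ht => (hβ t ht).continuousWithinAt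
  have hpar : ∀ t ∈ Icc a b, G (y t) (β t) (β t) = G (y a) (β a) (β a) := fun t ht =>
    par_const h hy hyU hβ ht
  have hconst := hpar b (right_mem_Icc.2 hab.le)
  have hβne : ∀ t ∈ Icc a b, β t ≠ 0 := by
    intro t ht h0
    have h1 := hpar t ht
    rw [← hconst, h0, hβ1, map_zero] at h1
    have h2 := h.pos (y b) (hyU b (right_mem_Icc.2 hab.le)) w hw
    linarith
  have hanti : StrictAntiOn (fun t => Sfun G v (y t) (β t)) (Icc a b) := by
    apply strictAntiOn_of_deriv_neg (convex_Icc a b)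
    · -- continuity
      have c1 : ContinuousOn (fun t => fderiv ℝ G (y t)) (Icc a b) :=
        h.contDiffOn_fderiv.continuousOn.comp hyc hyU
      have c2 : ContinuousOn (fun t => G (y t)) (Icc a b) := h.smooth.continuousOn.comp hyc hyU
      have c3 : ContinuousOn (fun t => fderiv ℝ v (y t)) (Icc a b) :=
        (hvr.fderiv_of_isOpen h.isOpen (m := ∞) (by simp)).continuousOn.comp hyc hyU
      have c4 := ((c1.clm_apply hvc).clm_apply hβc).clm_apply hβc
      have c5 := (c2.clm_apply (c3.clm_apply hβc)).clm_apply hβc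
      exact (c4.add (continuousOn_const.mul c5)).div_const 2
    · intro t ht
      rw [interior_Icc] at ht
      have hn : Icc a b ∈ 𝓝 t := Icc_mem_nhds ht.1 ht.2
      have := hasDerivAt_Sfun_par h hv hk (hyU t (Ioo_subset_Icc_self ht))
        ((hy t (Ioo_subset_Icc_self ht)).hasDerivAt hn) rfl
        ((hβ t (Ioo_subset_Icc_self ht)).hasDerivAt hn) rfl
      rw [this.deriv]
      have := hR t (Ioo_subset_Icc_self ht) (β t) (hβne t (Ioo_subset_Icc_self ht))
      linarith only [this]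
  have h1 := hanti (left_mem_Icc.2 hab.le) (right_mem_Icc.2 hab.le) hab
  simp only at h1
  rw [hβ1] at h1 hconst
  rw [hconst]
  exact h1.trans_le (hΛ _)

/-- a strict inequality between quadratic forms is uniformly strict -/
theorem exists_gap {S : E → ℝ} {g : E →L[ℝ] E →L[ℝ] ℝ} (hS : Continuous S)
    (hS2 : ∀ (c : ℝ) (a : E), S (c • a) = c ^ 2 * S a) (hg : ∀ a ≠ 0, 0 < g a a)
    (h : ∀ a ≠ 0, S a < 0) : ∃ lam > 0, ∀ a, S a ≤ -lam * g a a := by
  have hPE : ProperSpace E := FiniteDimensional.proper ℂ E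
  have hS0 : S 0 = 0 := by
    have := hS2 0 0
    simpa using this
  by_cases hE : ∃ a : E, a ≠ 0
  · obtain ⟨a₀, ha₀⟩ := hE
    have hc : IsCompact (sphere (0:E) 1) := isCompact_sphere 0 1
    have hne : (sphere (0:E) 1).Nonempty := by
      refine ⟨‖a₀‖⁻¹ • a₀, ?_⟩
      rw [mem_sphere_zero_iff_norm, norm_smul, norm_inv, norm_norm,
        inv_mul_cancel₀ (norm_ne_zero_iff.2 ha₀)]
    have hgc : Continuous fun a : E => g a a :=
      (g.continuous.clm_apply continuous_id)
    have hs0 : ∀ a ∈ sphere (0:E) 1, a ≠ 0 := by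
      rintro a ha rfl
      simp at ha
    have hqc : ContinuousOn (fun a : E => S a / g a a) (sphere (0:E) 1) :=
      hS.continuousOn.div hgc.continuousOn fun a ha => (hg a (hs0 a ha)).ne'
    obtain ⟨a₁, ha₁, hmax⟩ := hc.exists_isMaxOn hne hqc
    refine ⟨-(S a₁ / g a₁ a₁), ?_, fun a => ?_⟩
    · have h1 := div_neg_of_neg_of_pos (h a₁ (hs0 a₁ ha₁)) (hg a₁ (hs0 a₁ ha₁))
      linarith
    · rcases eq_or_ne a 0 with rfl | ha
      · rw [hS0]
        simp
      · have h1 : ‖a‖⁻¹ • a ∈ sphere (0:E) 1 := by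
          rw [mem_sphere_zero_iff_norm, norm_smul, norm_inv, norm_norm,
            inv_mul_cancel₀ (norm_ne_zero_iff.2 ha)]
        have h2 : S (‖a‖⁻¹ • a) / g (‖a‖⁻¹ • a) (‖a‖⁻¹ • a) ≤ S a₁ / g a₁ a₁ := hmax h1
        have h3 : g (‖a‖⁻¹ • a) (‖a‖⁻¹ • a) = ‖a‖⁻¹ ^ 2 * g a a := by
          simp only [map_smul, smul_apply, smul_eq_mul]
          ring
        have hn : 0 < ‖a‖⁻¹ ^ 2 := by
          have := norm_pos_iff.2 ha
          positivity
        rw [hS2, h3, mul_div_mul_left _ _ hn.ne', div_le_iff₀ (hg a ha)] at h2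
        linarith
  · push Not at hE
    refine ⟨1, one_pos, fun a => ?_⟩
    rw [hE a, hS0]
    simp

end linear

variable {E : Type*} [NormedAddCommGroup E] [NormedSpace ℂ E] [FiniteDimensional ℂ E]
  {M : Type*} [MetricSpace M] [ChartedSpace E M]
  [IsManifold 𝓘(ℂ, E) 1 M] [IsManifold 𝓘(ℝ, E) ∞ M]
  [RiemannianBundle (fun x : M => TangentSpace 𝓘(ℝ, E) x)]
  [IsContMDiffRiemannianBundle 𝓘(ℝ, E) ∞ E (fun x : M => TangentSpace 𝓘(ℝ, E) x)]
  {ρ : ℝ → M → M} {e e' : OpenPartialHomeomorph M E} {lam : ℝ}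

theorem Sfun_smul (G : E → E →L[ℝ] E →L[ℝ] ℝ) (v : E → E) (z : E) (c : ℝ) (a : E) :
    Sfun G v z (c • a) = c ^ 2 * Sfun G v z a := by
  simp only [Sfun, map_smul, smul_apply, smul_eq_mul]
  ring

theorem continuous_Sfun_right (G : E → E →L[ℝ] E →L[ℝ] ℝ) (v : E → E) (z : E) :
    Continuous (fun a => Sfun G v z a) := by
  have h1 : Continuous fun a : E => fderiv ℝ G z (v z) a a :=
    (fderiv ℝ G z (v z)).continuous.clm_apply continuous_id
  have h2 : Continuous fun a : E => G z (fderiv ℝ v z a) a :=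
    ((G z).continuous.comp (fderiv ℝ v z).continuous).clm_apply continuous_id
  exact (h1.add (continuous_const.mul h2)).div_const 2

variable [IsRiemannianManifold 𝓘(ℝ, E) M]

/-- if `∇ V` is nonnegative at a point where `V ≠ 0`, it is positive definite at another point -/
theorem exists_botGE_of_nonneg (hK : IsKahler E M) (hpos : ∀ x : M, PosBisectionalAt E x)
    (hnn : ∀ x : M, NonnegBisectionalAt E x) [CompleteSpace M]
    (hρ : IsHolIsomFlow E ρ) {x₀ : M} (hb : BotGE (E := E) ρ 0 x₀)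
    (hv : vF (E := E) ρ (chartAt E x₀) (chartAt E x₀ x₀) ≠ 0) :
    ∃ (x : M) (lam : ℝ), 0 < lam ∧ BotGE (E := E) ρ lam x := by
  obtain ⟨γ, hγ0, hγ⟩ := exists_global_curve (E := E) hK hnn hρ.rev x₀
  set σ : ℝ → M → M := fun t => ρ (-t) with hσd
  have hσ : IsHolIsomFlow E σ := hρ.rev
  have hγI : IsMIntegralCurveOn (I := 𝓘(ℝ, E)) γ (W σ) (Ioo (-1) 1) := hγ.isMIntegralCurveOn _
  have he : chartAt E x₀ ∈ maximalAtlas 𝓘(ℂ, E) 1 M := chart_mem_maximalAtlas x₀
  have hx₀ : x₀ ∈ (chartAt E x₀).source := mem_chart_source E x₀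
  set e := chartAt E x₀ with hedef
  have hLK := localKahler_chartG hK he
  have hvc : ContinuousOn (vF σ e) e.target := (contDiffOn_vF hσ he).continuousOn
  have hv' : vF (E := E) σ e (e x₀) ≠ 0 := by
    rw [hσd, vF_rev]
    exact neg_ne_zero.2 hv
  -- a short time
  have hγc : ContinuousAt γ 0 :=
    (hγI.continuousWithinAt ⟨by norm_num, by norm_num⟩).continuousAt
      (Ioo_mem_nhds (by norm_num) (by norm_num))
  have hev1 : ∀ᶠ t in 𝓝 (0:ℝ), γ t ∈ e.source := by
    apply hγc.eventually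
    rw [hγ0]
    exact e.open_source.mem_nhds hx₀
  have hev2 : ∀ᶠ t in 𝓝 (0:ℝ), vF (E := E) σ e (e (γ t)) ≠ 0 := by
    have h1 : ContinuousAt (fun t => vF (E := E) σ e (e (γ t))) 0 := by
      have h2 : ContinuousAt (fun t => e (γ t)) 0 := by
        have h3 : ContinuousAt e (γ 0) := by
          rw [hγ0]; exact e.continuousAt hx₀
        exact ContinuousAt.comp (g := e) (f := γ) h3 hγc
      have h4 : ContinuousAt (vF (E := E) σ e) (e (γ 0)) := by
        rw [hγ0]
        exact hvc.continuousAt (e.open_target.mem_nhds (e.map_source hx₀))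
      exact ContinuousAt.comp (g := vF (E := E) σ e) (f := fun t => e (γ t)) h4 h2
    apply h1.eventually_ne
    rw [hγ0]
    exact hv'
  have hev3 : ∀ᶠ t in 𝓝 (0:ℝ), t ∈ Ioo (-1:ℝ) 1 := Ioo_mem_nhds (by norm_num) (by norm_num)
  obtain ⟨ε, hε, hball⟩ := Metric.eventually_nhds_iff_ball.1 (hev1.and (hev2.and hev3))
  have hin : ∀ t ∈ Icc (0:ℝ) (ε / 2), t ∈ ball (0:ℝ) ε := by
    intro t ht
    rw [mem_ball_zero_iff, Real.norm_eq_abs, abs_of_nonneg ht.1]
    linarith [ht.2]
  have h0top : TopLE (E := E) σ (-0) x₀ := topLE_rev.2 hb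
  rw [neg_zero] at h0top
  have hstr := fun (w : E) (hw : w ≠ 0) => top_eigenvalue_strict hLK (contDiffOn_vF hσ he)
    (killing_vF hσ he) (y := e ∘ γ) (a := 0) (b := ε / 2) (by linarith)
    (fun r hr => ((IntegralCurve.hasDerivAt hσ he hγI
      (Ioo_mem_nhds (hball r (hin r hr)).2.2.1 (hball r (hin r hr)).2.2.2)
      (hball r (hin r hr)).1).hasDerivWithinAt))
    (fun r hr => e.map_source (hball r (hin r hr)).1)
    (fun r hr α hα => by
      have hs := (hball r (hin r hr)).1
      refine Rc_pos_chartG hK he (e.map_source hs) ?_ _ _ (hball r (hin r hr)).2.1 hα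
      exact hpos _)
    (Λ := 0) (fun w => by
      have h1 := h0top e he hx₀ w
      simp only [Function.comp_apply, hγ0]
      exact h1) hw
  have hmem : ε / 2 ∈ Icc (0:ℝ) (ε / 2) := ⟨by linarith, le_rfl⟩
  have hs := (hball _ (hin _ hmem)).1
  set x₁ := γ (ε / 2) with hx₁
  have her := mem_maximalAtlas_real he
  obtain ⟨lam, hlam, hle⟩ := exists_gap (S := fun a => Sfun (chartG e) (vF σ e) (e x₁) a)
    (g := chartG e (e x₁)) (continuous_Sfun_right _ _ _) (fun c a => Sfun_smul _ _ _ _ _)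
    (fun a ha => chartG_pos her (e.map_source hs) a ha) (fun a ha => by
      have h1 := hstr a ha
      rw [zero_mul] at h1
      exact h1)
  refine ⟨x₁, lam, hlam, topLE_rev.1 (TopLE.of_chart hσ he hs fun a => hle a)⟩

end Vale.Agent.P253.H22
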