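import Vale.Agent.P253.H577.Final

/-!
P253: a holomorphic Killing field `X = J V` such that `∇ V` is positive definite at one point has a
zero with positive weights, on a complete Kähler manifold of nonnegative bisectional curvature.
-/

open scoped Manifold ContDiff Topology Bundle
open Set Metric Complex Filter Bundle IsManifold Manifold Module Vale.Agent.P253.Mfd
  Vale.Agent.P253.H577

set_option maxSynthPendingDepth 3
set_option linter.unusedSectionVars false

noncomputable section

namespace Vale.Agent.P253.H22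

variable {E : Type*} [NormedAddCommGroup E] [NormedSpace ℂ E] [FiniteDimensional ℂ E]
  {M : Type*} [MetricSpace M] [ChartedSpace E M]
  [IsManifold 𝓘(ℂ, E) 1 M] [IsManifold 𝓘(ℝ, E) ∞ M]
  [RiemannianBundle (fun x : M => TangentSpace 𝓘(ℝ, E) x)]
  [IsContMDiffRiemannianBundle 𝓘(ℝ, E) ∞ E (fun x : M => TangentSpace 𝓘(ℝ, E) x)]
  {ρ : ℝ → M → M} {e e' : OpenPartialHomeomorph M E} {lam : ℝ}

/-- lower bound `lam` for the symmetric form `g(∇_a V, a)`, `V = -JX`, `X` the generator of `ρ` -/
def BotGE (ρ : ℝ → M → M) (lam : ℝ) (x : M) : Prop :=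
  ∀ e ∈ maximalAtlas 𝓘(ℂ, E) 1 M, x ∈ e.source → ∀ a,
    lam * chartG e (e x) a a ≤ Sfun (chartG e) (vF ρ e) (e x) a

theorem vF_rev (e : OpenPartialHomeomorph M E) (z : E) :
    vF (E := E) (fun t => ρ (-t)) e z = -vF (E := E) ρ e z := by
  have h1 : xF (E := E) (fun t => ρ (-t)) e z = -xF (E := E) ρ e z := by
    simp only [xF]
    rw [deriv_comp_neg (fun t => e (ρ t (e.symm z)))]
    simp
  simp only [vF]
  rw [h1, smul_neg]

theorem Sfun_neg (G : E → E →L[ℝ] E →L[ℝ] ℝ) (v : E → E) (z a : E) :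
    Sfun G (fun z => -v z) z a = -Sfun G v z a := by
  simp only [Sfun, fderiv_fun_neg, map_neg, neg_apply]
  ring

theorem Sfun_rev (e : OpenPartialHomeomorph M E) (z a : E) :
    Sfun (chartG e) (vF (fun t => ρ (-t)) e) z a = -Sfun (chartG e) (vF ρ e) z a := by
  have h1 : vF (E := E) (fun t => ρ (-t)) e = fun z => -vF (E := E) ρ e z := by
    funext z; exact vF_rev e z
  rw [h1, Sfun_neg]

theorem topLE_rev {x : M} : TopLE (E := E) (fun t => ρ (-t)) (-lam) x ↔ BotGE (E := E) ρ lam x := by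
  constructor
  · intro h e he hx a
    have := h e he hx a
    rw [Sfun_rev] at this
    linarith
  · intro h e he hx a
    have := h e he hx a
    rw [Sfun_rev]
    linarith

theorem continuousOn_Sfun (hK : IsKahler E M) (hρ : IsHolIsomFlow E ρ)
    (he : e ∈ maximalAtlas 𝓘(ℂ, E) 1 M) (a : E) :
    ContinuousOn (fun z => Sfun (chartG e) (vF ρ e) z a) e.target := by
  have h := localKahler_chartG hK he
  have hvr : ContDiffOn ℝ ∞ (vF ρ e) e.target := (contDiffOn_vF hρ he).restrict_scalars ℝ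
  have c1 : ContinuousOn (fderiv ℝ (chartG e)) e.target := h.contDiffOn_fderiv.continuousOn
  have c2 : ContinuousOn (chartG e) e.target := h.smooth.continuousOn
  have c3 : ContinuousOn (fderiv ℝ (vF ρ e)) e.target :=
    (hvr.fderiv_of_isOpen h.isOpen (m := ∞) (by simp)).continuousOn
  have ca : ContinuousOn (fun _ : E => a) e.target := continuousOn_const
  have c4 := ((c1.clm_apply hvr.continuousOn).clm_apply ca).clm_apply ca
  have c5 := (c2.clm_apply (c3.clm_apply ca)).clm_apply ca
  exact (c4.add (continuousOn_const.mul c5)).div_const 2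

variable [IsRiemannianManifold 𝓘(ℝ, E) M]

/-- the backward orbit of `V` from a point at which `∇ V` is positive definite converges to a zero
at which `∇ V` is positive definite -/
theorem exists_zero (hK : IsKahler E M) (hnn : ∀ x : M, NonnegBisectionalAt E x) [CompleteSpace M]
    (hρ : IsHolIsomFlow E ρ) {x₀ : M} (hlam : 0 < lam) (hb : BotGE (E := E) ρ lam x₀) :
    ∃ p : M, (∀ t, ρ t p = p) ∧ BotGE (E := E) ρ lam p := by
  have hT2 : T2Space M := inferInstance
  obtain ⟨γ, hγ0, hγ⟩ := exists_global_curve (E := E) hK hnn hρ.rev x₀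
  set σ : ℝ → M → M := fun t => ρ (-t) with hσd
  have hσ : IsHolIsomFlow E σ := hρ.rev
  have hγI : ∀ a b, IsMIntegralCurveOn (I := 𝓘(ℝ, E)) γ (W σ) (Ioo a b) := fun a b =>
    hγ.isMIntegralCurveOn _
  have h0top : TopLE (E := E) σ (-lam) (γ 0) := by rw [hγ0]; exact topLE_rev.2 hb
  have htop : ∀ t : ℝ, 0 ≤ t → TopLE (E := E) σ (-lam) (γ t) := fun t ht =>
    TopLE.step hK hnn hσ (hγI (-1) (t + 1)) ht ⟨by norm_num, by linarith⟩
      ⟨by linarith, by linarith⟩ h0top
  have hsp : ∀ t : ℝ, 0 ≤ t →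
      nW (E := E) σ (γ t) ≤ Real.exp (2 * (-lam) * t) * nW (E := E) σ x₀ := by
    intro t ht
    have h1 := speed_bound hK hnn hσ (hγI (-1) (t + 1)) ht ⟨by norm_num, by linarith⟩
      ⟨by linarith, by linarith⟩ h0top
    rwa [sub_zero, hγ0] at h1
  set C0 : ℝ := √(nW (E := E) σ x₀) with hC0
  have hn0 := nW_nonneg (E := E) hσ x₀
  have hdist : ∀ n : ℕ, dist (γ n) (γ ((n + 1 : ℕ) : ℝ)) ≤ C0 * Real.exp (-lam) ^ n := by
    intro n
    have hn : (0 : ℝ) ≤ n := Nat.cast_nonneg n
    have h1 := dist_bound hσ (hγI (-1) ((n : ℝ) + 2)) (t₀ := n) (t₁ := ((n + 1 : ℕ) : ℝ))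
      (by push_cast; linarith) ⟨by linarith, by linarith⟩ ⟨by push_cast; linarith, by push_cast; linarith⟩
      (C := C0 * Real.exp (-lam) ^ n) (by positivity) (fun t ht => by
        refine (hsp t (hn.trans ht.1)).trans ?_
        rw [mul_pow, hC0, Real.sq_sqrt hn0, mul_comm, ← pow_mul, ← Real.exp_nat_mul]
        have h2 : Real.exp (2 * (-lam) * t) ≤ Real.exp (((n * 2 : ℕ) : ℝ) * -lam) := by
          apply Real.exp_le_exp.2
          push_cast
          nlinarith [ht.1]
        exact mul_le_mul_of_nonneg_left h2 hn0)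
    refine h1.trans (le_of_eq ?_)
    push_cast
    ring
  have hr1 : Real.exp (-lam) < 1 := by
    rw [Real.exp_lt_one_iff]
    linarith
  have hcau : CauchySeq (fun n : ℕ => γ (n : ℝ)) :=
    cauchySeq_of_le_geometric (Real.exp (-lam)) C0 hr1 hdist
  obtain ⟨p, hp⟩ := cauchySeq_tendsto_of_complete hcau
  have he : chartAt E p ∈ maximalAtlas 𝓘(ℂ, E) 1 M := chart_mem_maximalAtlas p
  set e := chartAt E p with hedef
  have hpe : p ∈ e.source := mem_chart_source E p
  have her := mem_maximalAtlas_real he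
  have hsrc : ∀ᶠ n : ℕ in atTop, γ (n : ℝ) ∈ e.source := hp.eventually (e.open_source.mem_nhds hpe)
  have hz : Tendsto (fun n : ℕ => e (γ (n : ℝ))) atTop (𝓝 (e p)) :=
    (e.continuousAt hpe).tendsto.comp hp
  have htgt : e.target ∈ 𝓝 (e p) := e.open_target.mem_nhds (e.map_source hpe)
  have hvc : ContinuousAt (vF σ e) (e p) := (contDiffOn_vF hσ he).continuousOn.continuousAt htgt
  have hGc : ContinuousAt (chartG e) (e p) := (contDiffOn_chartG her).continuousOn.continuousAt htgt
  -- the speed at the limit vanishes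
  have hlim0 : Tendsto (fun n : ℕ => nW (E := E) σ (γ (n : ℝ))) atTop (𝓝 0) := by
    have h1 : Tendsto (fun n : ℕ => Real.exp (2 * (-lam) * n) * nW (E := E) σ x₀) atTop (𝓝 0) := by
      have h2 : Tendsto (fun n : ℕ => 2 * (-lam) * (n : ℝ)) atTop atBot := by
        have h3 : Tendsto (fun n : ℕ => (2 * lam) * (n : ℝ)) atTop atTop :=
          tendsto_natCast_atTop_atTop.const_mul_atTop (by linarith)
        have h4 := tendsto_neg_atTop_atBot.comp h3
        refine h4.congr fun n => ?_
        simp only [Function.comp_apply]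
        ring
      have h3 := (Real.tendsto_exp_atBot.comp h2).mul_const (nW (E := E) σ x₀)
      simpa using h3
    refine squeeze_zero (fun n => nW_nonneg hσ _) (fun n => hsp n (Nat.cast_nonneg n)) h1
  have hlim1 : Tendsto (fun n : ℕ => nW (E := E) σ (γ (n : ℝ))) atTop
      (𝓝 (chartG e (e p) (vF σ e (e p)) (vF σ e (e p)))) := by
    have h1 : ContinuousAt (fun z => chartG e z (vF σ e z) (vF σ e z)) (e p) :=
      (hGc.clm_apply hvc).clm_apply hvc
    refine (h1.tendsto.comp hz).congr' ?_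
    filter_upwards [hsrc] with n hn
    exact (nW_eq hσ he hn).symm
  have hv0 : vF σ e (e p) = 0 := by
    by_contra hne
    have h1 := chartG_pos her (e.map_source hpe) _ hne
    rw [tendsto_nhds_unique hlim1 hlim0] at h1
    exact lt_irrefl _ h1
  have hv0' : vF ρ e (e p) = 0 := by
    have h1 := vF_rev (ρ := ρ) e (e p)
    rw [← hσd, hv0] at h1
    exact neg_eq_zero.1 h1.symm
  refine ⟨p, fixed_of_zero hρ he hpe hv0', topLE_rev.1 (TopLE.of_chart hσ he hpe fun a => ?_)⟩
  have h1 : Tendsto (fun n : ℕ => Sfun (chartG e) (vF σ e) (e (γ (n : ℝ))) a) atTop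
      (𝓝 (Sfun (chartG e) (vF σ e) (e p) a)) :=
    ((continuousOn_Sfun hK hσ he a).continuousAt htgt).tendsto.comp hz
  have h2 : Tendsto (fun n : ℕ => -lam * chartG e (e (γ (n : ℝ))) a a) atTop
      (𝓝 (-lam * chartG e (e p) a a)) :=
    (((hGc.clm_apply continuousAt_const).clm_apply continuousAt_const).tendsto.comp hz).const_mul _
  refine le_of_tendsto_of_tendsto h1 h2 ?_
  filter_upwards [hsrc] with n hn
  exact htop n (Nat.cast_nonneg n) e he hn a

/-- a one-parameter group as an action of the vector group `ℝ` -/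
theorem toAction (hρ : IsHolIsomFlow E ρ) : IsHolIsomAction (V := ℝ) E ρ where
  zero := hρ.zero
  add := hρ.add
  smooth := hρ.smooth
  holo := hρ.holo
  isom := hρ.isom

theorem ln_real (ρ : ℝ → M → M) : ln (V := ℝ) ρ 1 = ρ := by
  funext t x
  simp [ln]

/-- the weights at a fixed point at which `∇ V` is positive definite are positive -/
theorem exists_hasWeights (hK : IsKahler E M) (hρ : IsHolIsomFlow E ρ) {p : M}
    (hfix : ∀ t, ρ t p = p) (hlam : 0 < lam) (hb : BotGE (E := E) ρ lam p) :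
    ∃ (b : Basis (Fin (finrank ℂ E)) ℂ E) (m : Fin (finrank ℂ E) → ℝ), HasWeights ρ p b m ∧
      ∀ j, lam ≤ m j := by
  have hact := toAction hρ
  have he : chartAt E p ∈ maximalAtlas 𝓘(ℂ, E) 1 M := chart_mem_maximalAtlas p
  have hx : p ∈ (chartAt E p).source := mem_chart_source E p
  have hz : chartAt E p p ∈ (chartAt E p).target := mem_chart_target E p
  have hLK := localKahler_chartG hK he
  have hL := commFam_vL hact he
  -- the generator vanishes at `p`
  have hx0 : xF ρ (chartAt E p) (chartAt E p p) = 0 := by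
    have h1 : (fun t : ℝ => chartAt E p (ρ t ((chartAt E p).symm (chartAt E p p)))) =
        fun _ => chartAt E p p := by
      funext t
      rw [(chartAt E p).left_inv hx, hfix]
    rw [xF, h1, deriv_const]
  have hv0 : vF ρ (chartAt E p) (chartAt E p p) = 0 := by
    rw [vF, hx0, smul_zero, neg_zero]
  have hvL1 : vL (V := ℝ) ρ (chartAt E p) (chartAt E p p) 1 = 0 := by
    rw [vL_apply hact he hz, ln_real, hv0]
  have hzero : ∀ κ : ℝ, vL (V := ℝ) ρ (chartAt E p) (chartAt E p p) κ = 0 := fun κ => by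
    have h1 : κ = κ • (1 : ℝ) := by simp
    rw [h1, map_smul, hvL1, smul_zero]
  obtain ⟨b, r, hr⟩ := hL.exists_weights hLK hz hzero
  have hev : (fun z => vL (V := ℝ) ρ (chartAt E p) z 1) =ᶠ[𝓝 (chartAt E p p)]
      vF ρ (chartAt E p) := by
    filter_upwards [(chartAt E p).open_target.mem_nhds hz] with z hz
    rw [vL_apply hact he hz, ln_real]
  have hder : ∀ j, fderiv ℝ (vF ρ (chartAt E p)) (chartAt E p p) (b j) = r j 1 • b j := by
    intro j
    rw [← hr, hev.fderiv_eq]
  have hle : ∀ j, lam ≤ r j 1 := by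
    intro j
    have h1 := hb _ he hx (b j)
    rw [Sfun, hv0, map_zero, hder, map_smul] at h1
    simp only [zero_apply, smul_apply, smul_eq_mul, zero_add] at h1
    have h2 := hLK.pos _ hz (b j) (b.ne_zero j)
    have h3 : lam * chartG (chartAt E p) (chartAt E p p) (b j) (b j) ≤
        r j 1 * chartG (chartAt E p) (chartAt E p p) (b j) (b j) := by linarith
    exact le_of_mul_le_mul_right h3 h2
  refine ⟨b, fun j => r j 1, ⟨hfix, fun j => hlam.trans_le (hle j), fun t j => ?_⟩, hle⟩
  have h1 := mfderiv_eq_TF hρ hfix t (b j)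
  rw [TF_eigen hρ he hx hfix (hder j) t] at h1
  exact h1

/-- **Killing fields positive at one point**: uniformization -/
theorem main_flow (hK : IsKahler E M) [CompleteSpace M] [NoncompactSpace M] [ConnectedSpace M]
    (hnn : ∀ x : M, NonnegBisectionalAt E x) (hρ : IsHolIsomFlow E ρ) {x₀ : M} (hlam : 0 < lam)
    (hb : BotGE (E := E) ρ lam x₀) :
    ∃ (p : M) (b : Basis (Fin (finrank ℂ E)) ℂ E) (m : Fin (finrank ℂ E) → ℝ),
      HasWeights ρ p b m ∧ (∀ j, lam ≤ m j) ∧
      (PosBisectionalAt E p → ∃ F : M ≃ₘ^1⟮𝓘(ℂ, E), 𝓘(ℂ, E)⟯ E, IsLinearization ρ p F ∧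
        (∃ C > 0, ∀ x : M, ‖F x‖ ≤ C * Real.exp (C * dist p x)) ∧
        ∀ κ : ℝ, (∀ j k, m j ≤ κ * m k) → ∃ C > 0, ∀ x : M, dist p x ≤ C * (1 + ‖F x‖) ^ κ) := by
  obtain ⟨p, hfix, hbp⟩ := exists_zero hK hnn hρ hlam hb
  obtain ⟨b, m, hw, hle⟩ := exists_hasWeights hK hρ hfix hlam hbp
  exact ⟨p, b, m, hw, hle, fun hpos =>
    Vale.Agent.P253.U165.main_weights hK hnn hρ hpos hw⟩

end Vale.Agent.P253.H22
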